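import Vale.Agent.P057.H525.Lvl

set_option linter.all false

open Finset Filter

namespace Vale.Agent.P057.H525

theorem f_bound {θ : ℝ} {p r J μ : ℕ} (hθ0 : 0 < θ) (hμ : 1000 ≤ μ) (hp8 : p ≤ 8 * μ)
    (hr8 : r ≤ 8 * μ) (hJ : (J : ℝ) ≤ 17 * p / θ + 1) :
    (300 * (r : ℤ) ^ 2 + J * r + (p : ℤ) ^ 2) ≤ ((⌈19272 + 1088 / θ⌉₊ * μ ^ 2 : ℕ) : ℤ) := by
  have hμR : (1000 : ℝ) ≤ μ := by exact_mod_cast hμ
  have hp8R : (p : ℝ) ≤ 8 * μ := by exact_mod_cast hp8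
  have hr8R : (r : ℝ) ≤ 8 * μ := by exact_mod_cast hr8
  have hp0 : (0 : ℝ) ≤ p := by positivity
  have hr0 : (0 : ℝ) ≤ r := by positivity
  have hK : 19272 + 1088 / θ ≤ ⌈19272 + 1088 / θ⌉₊ := Nat.le_ceil _
  generalize ⌈19272 + 1088 / θ⌉₊ = K at hK ⊢
  have h1 : 300 * (r : ℝ) ^ 2 + J * r + (p : ℝ) ^ 2 ≤ K * (μ : ℝ) ^ 2 := by
    have e1 : (r : ℝ) ^ 2 ≤ 64 * (μ : ℝ) ^ 2 := by
      have := pow_le_pow_left₀ hr0 hr8R 2
      linarith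
    have e2 : (p : ℝ) ^ 2 ≤ 64 * (μ : ℝ) ^ 2 := by
      have := pow_le_pow_left₀ hp0 hp8R 2
      linarith
    have e0 : (J : ℝ) ≤ 17 * (8 * μ) / θ + 1 := by
      refine hJ.trans ?_
      have : 17 * (p : ℝ) / θ ≤ 17 * (8 * μ) / θ := by
        apply div_le_div_of_nonneg_right _ hθ0.le
        linarith
      linarith
    have e3 : (J : ℝ) * r ≤ (17 * (8 * μ) / θ + 1) * (8 * μ) :=
      mul_le_mul e0 hr8R hr0 (by positivity)
    have e4 : (17 * (8 * (μ : ℝ)) / θ + 1) * (8 * μ) = 1088 / θ * (μ : ℝ) ^ 2 + 8 * μ := by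
      field_simp
      ring
    have e5 : 8 * (μ : ℝ) ≤ 8 * (μ : ℝ) ^ 2 := by nlinarith only [hμR]
    have e6 := mul_le_mul_of_nonneg_right hK (by positivity : (0 : ℝ) ≤ (μ : ℝ) ^ 2)
    linarith only [e1, e2, e3, e4, e5, e6]
  have h2 : 300 * r ^ 2 + J * r + p ^ 2 ≤ K * μ ^ 2 := by exact_mod_cast h1
  exact_mod_cast h2

theorem one_unit (η : ℝ) (hη : 0 < η) : ∃ K m0 : ℕ, ∀ μ : ℕ, m0 ≤ μ → ∀ p r : ℕ, p.Prime →
    r.Prime → p ≠ r → μ < p → p ≤ 8 * μ → μ < r → r ≤ 8 * μ →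
    ∃ (U : Finset ℤ) (f : ℤ → ℤ),
      (∀ u ∈ U, ∀ v ∈ U, ((p * r : ℕ) : ℤ) ∣ u - v → u = v) ∧
      (∀ u ∈ U, 0 ≤ f u ∧ f u ≤ ((K * μ ^ 2 : ℕ) : ℤ)) ∧
      (∀ a ∈ U, ∀ b ∈ U, ∀ c ∈ U, ((p * r : ℕ) : ℤ) ∣ a + c - 2 * b →
        0 ≤ f a + f c - 2 * f b ∧ (f a + f c - 2 * f b = 0 → a = c)) ∧
      Real.exp (-(Real.log (240 / 71) + η)) ≤ (U.card : ℝ) / ((p * r : ℕ) : ℝ) := by
  have hlt : Real.exp (-η) < 1 := Real.exp_lt_one_iff.2 (by linarith only [hη])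
  obtain ⟨δ, hδ⟩ : ∃ δ : ℝ, δ = 1 - Real.exp (-η) := ⟨_, rfl⟩
  have hδ0 : 0 < δ := by linarith
  have hδ1 : δ < 1 := by linarith [Real.exp_pos (-η)]
  obtain ⟨θ, hθ⟩ : ∃ θ : ℝ, θ = δ / 48 := ⟨_, rfl⟩
  have hθ0 : 0 < θ := by rw [hθ]; positivity
  have hθ1 : θ ≤ 1 / 48 := by linarith
  obtain ⟨m1, hm1⟩ := exists_nat_ge (40 / δ)
  refine ⟨⌈19272 + 1088 / θ⌉₊, max m1 1000, fun μ hμ p r hp hr hpr hp1 hp8 hr1 hr8 => ?_⟩
  have hμ1 : m1 ≤ μ := le_trans (le_max_left _ _) hμ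
  have hμ2 : 1000 ≤ μ := le_trans (le_max_right _ _) hμ
  have hμR : (1000 : ℝ) ≤ μ := by exact_mod_cast hμ2
  have hp1R : (μ : ℝ) ≤ p := by exact_mod_cast hp1.le
  have hr1R : (μ : ℝ) ≤ r := by exact_mod_cast hr1.le
  have hp8R : (p : ℝ) ≤ 8 * μ := by exact_mod_cast hp8
  have hr8R : (r : ℝ) ≤ 8 * μ := by exact_mod_cast hr8
  have hodd : p % 2 = 1 := hp.eq_two_or_odd.resolve_left (by omega)
  have hcop : Nat.Coprime p r := (Nat.coprime_primes hp hr).2 hpr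
  have hg1 : θ * r < ⌊θ * r⌋₊ + 1 := Nat.lt_floor_add_one _
  have hg2 : (⌊θ * r⌋₊ : ℝ) ≤ θ * r := Nat.floor_le (by positivity)
  generalize hgdef : ⌊θ * r⌋₊ = g0 at hg1 hg2
  have hJ1 : 17 * p / θ ≤ ⌈17 * p / θ⌉₊ := Nat.le_ceil _
  have hJ2 : (⌈17 * p / θ⌉₊ : ℝ) < 17 * p / θ + 1 := Nat.ceil_lt_add_one (by positivity)
  generalize hJdef : ⌈17 * p / θ⌉₊ = J at hJ1 hJ2
  have hgr : 24 * (g0 + 1) + 100 ≤ r := by
    have h1 : θ * r ≤ 1 / 48 * r := mul_le_mul_of_nonneg_right hθ1 (by positivity)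
    have h2 : 24 * ((g0 : ℝ) + 1) + 100 ≤ r := by linarith
    exact_mod_cast h2
  have hJg : 2 * p ^ 2 < J * (g0 + 1) := by
    have h1 : (17 * p / θ) * (θ * r) ≤ J * ((g0 : ℝ) + 1) :=
      mul_le_mul hJ1 hg1.le (by positivity) (by positivity)
    have h2 : (17 * p / θ) * (θ * r) = 17 * (p * (r : ℝ)) := by field_simp
    have h3 : (p : ℝ) * p ≤ p * (8 * r) := mul_le_mul_of_nonneg_left (by linarith) (by positivity)
    have hpR : (0 : ℝ) < p := by linarith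
    have hrR : (0 : ℝ) < r := by linarith
    have h4 : (0 : ℝ) < p * r := by positivity
    have h5 : 2 * (p : ℝ) ^ 2 < J * ((g0 : ℝ) + 1) := by nlinarith only [h1, h2, h3, h4]
    exact_mod_cast h5
  have hpr150 : 2 * p ^ 2 < 150 * r ^ 2 := by
    have h1 : p < 8 * r := by omega
    nlinarith
  obtain ⟨U, f, hU, hf, hAP, hcard⟩ := block3 (g := g0 + 1) (J := J) hcop hodd (by omega)
    (by omega) (by omega) hgr hJg hpr150
  refine ⟨U, f, hU, fun u hu => ⟨(hf u hu).1, (hf u hu).2.trans ?_⟩, hAP, ?_⟩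
  · exact f_bound hθ0 hμ2 hp8 hr8 hJ2.le
  · have hpR : (0 : ℝ) < p := by linarith
    have hrR : (0 : ℝ) < r := by linarith
    have h5 : Real.exp (-(Real.log (240 / 71) + η)) = 71 / 240 * (1 - δ) := by
      rw [neg_add, Real.exp_add, Real.exp_neg, Real.exp_log (by norm_num), hδ]
      norm_num
    have hq : (0 : ℝ) < ((p * r : ℕ) : ℝ) := by
      push_cast
      exact mul_pos hpR hrR
    rw [h5, le_div_iff₀ hq]
    refine le_trans ?_ hcard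
    push_cast
    have e1 : ((g0 : ℝ) + 1) * p / 2 ≤ θ * (p * r) / 2 + p / 2 := by
      have := mul_le_mul_of_nonneg_right hg2 hpR.le
      linarith
    have e2 : θ * ((p : ℝ) * r) = δ / 48 * (p * r) := by rw [hθ]
    have e3 : 40 ≤ δ * μ := by
      have h6 : 40 / δ ≤ μ := hm1.trans (by exact_mod_cast hμ1)
      rw [div_le_iff₀ hδ0] at h6
      linarith
    have e4 : 40 * (p : ℝ) ≤ δ * (p * r) := by
      have h6 : 40 ≤ δ * r := e3.trans (mul_le_mul_of_nonneg_left hr1R hδ0.le)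
      have := mul_le_mul_of_nonneg_right h6 hpR.le
      linarith
    have e5 : 40 * (r : ℝ) ≤ δ * (p * r) := by
      have h6 : 40 ≤ δ * p := e3.trans (mul_le_mul_of_nonneg_left hp1R hδ0.le)
      have := mul_le_mul_of_nonneg_right h6 hrR.le
      linarith
    have e6 : 0 ≤ δ * ((p : ℝ) * r) := by positivity
    linarith

theorem one_level3 (η : ℝ) (hη : 0 < η) : ∃ K m0 : ℕ, ∀ m : ℕ, m0 ≤ m → ∀ d : ℕ, 1 ≤ d →
    (2 * d) ^ 2 ≤ Nat.sqrt m + 1 → ∀ W : ℕ, W ≤ m ^ d →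
    ∃ A : Finset ℤ, A ⊆ Finset.Ico 0 (W : ℤ) ∧
      (∀ a ∈ A, ∀ b ∈ A, ∀ c ∈ A, a + c = 2 * b → a = c) ∧
      (W : ℝ) * Real.exp (-((Real.log (240 / 71) + η) * d)) *
        (1 / (2 * ((K * d * m + 1 : ℕ) : ℝ))) ≤ A.card := by
  classical
  obtain ⟨K, μ0, hK⟩ := one_unit η hη
  refine ⟨4 * K, (max μ0 (10 ^ 6)) ^ 2, fun m hm d hd hdm W hW => ?_⟩
  have hs : max μ0 (10 ^ 6) ≤ Nat.sqrt m := by
    rw [Nat.le_sqrt]
    rw [sq] at hm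
    exact hm
  obtain ⟨μ, hμ⟩ : ∃ μ : ℕ, μ = Nat.sqrt m + 1 := ⟨_, rfl⟩
  rw [← hμ] at hdm
  have hμ0 : μ0 ≤ μ := by
    have := le_trans (le_max_left μ0 (10 ^ 6)) hs
    omega
  have hμ6 : 10 ^ 6 ≤ μ := by
    have := le_trans (le_max_right μ0 (10 ^ 6)) hs
    omega
  have hμm : m ≤ μ ^ 2 := by
    have := Nat.lt_succ_sqrt m
    rw [hμ, sq]
    exact this.le
  have hμm2 : μ ^ 2 ≤ 4 * m := by
    have h1 := Nat.sqrt_le m
    have h2 : 1 ≤ Nat.sqrt m := by omega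
    rw [hμ]
    nlinarith
  obtain ⟨P, hPc, hP⟩ := Vale.Agent.P057.Lower.primes_exist μ (2 * d) hμ6 hdm
  have hcardeq : Fintype.card (Fin d × Fin 2) = Fintype.card P := by
    rw [Fintype.card_prod, Fintype.card_fin, Fintype.card_fin, Fintype.card_coe, hPc]
    ring
  have e : (Fin d × Fin 2) ≃ P := Fintype.equivOfCardEq hcardeq
  have hpr : ∀ z : Fin d × Fin 2, ((e z : ℕ)).Prime ∧ μ < (e z : ℕ) ∧ (e z : ℕ) ≤ 8 * μ :=
    fun z => hP _ (e z).2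
  have hne : ∀ z w : Fin d × Fin 2, z ≠ w → ((e z : ℕ)) ≠ (e w : ℕ) := by
    intro z w hzw h
    exact hzw (e.injective (Subtype.ext h))
  have hunit : ∀ i : Fin d, ∃ (U : Finset ℤ) (f : ℤ → ℤ),
      (∀ u ∈ U, ∀ v ∈ U, ((((e (i, 0)) : ℕ) * ((e (i, 1)) : ℕ) : ℕ) : ℤ) ∣ u - v → u = v) ∧
      (∀ u ∈ U, 0 ≤ f u ∧ f u ≤ ((K * μ ^ 2 : ℕ) : ℤ)) ∧
      (∀ a ∈ U, ∀ b ∈ U, ∀ c ∈ U,
        ((((e (i, 0)) : ℕ) * ((e (i, 1)) : ℕ) : ℕ) : ℤ) ∣ a + c - 2 * b →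
        0 ≤ f a + f c - 2 * f b ∧ (f a + f c - 2 * f b = 0 → a = c)) ∧
      Real.exp (-(Real.log (240 / 71) + η)) ≤
        (U.card : ℝ) / ((((e (i, 0)) : ℕ) * ((e (i, 1)) : ℕ) : ℕ) : ℝ) := by
    intro i
    exact hK μ hμ0 _ _ (hpr (i, 0)).1 (hpr (i, 1)).1
      (hne _ _ (fun h => by simpa using congrArg Prod.snd h))
      (hpr (i, 0)).2.1 (hpr (i, 0)).2.2 (hpr (i, 1)).2.1 (hpr (i, 1)).2.2
  choose U f hU hf hAP hcard using hunit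
  have hcop : Pairwise (Function.onFun Nat.Coprime
      (fun i : Fin d => ((e (i, 0)) : ℕ) * ((e (i, 1)) : ℕ))) := by
    intro i j hij
    have hc : ∀ a b : Fin 2, Nat.Coprime (e (i, a) : ℕ) (e (j, b) : ℕ) := by
      intro a b
      exact (Nat.coprime_primes (hpr _).1 (hpr _).1).2
        (hne _ _ (fun h => hij (congrArg Prod.fst h)))
    exact Nat.Coprime.mul_left (Nat.Coprime.mul_right (hc 0 0) (hc 0 1))
      (Nat.Coprime.mul_right (hc 1 0) (hc 1 1))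
  have hq0 : ∀ i : Fin d, 0 < ((e (i, 0)) : ℕ) * ((e (i, 1)) : ℕ) := fun i =>
    Nat.mul_pos (hpr (i, 0)).1.pos (hpr (i, 1)).1.pos
  have hprod : W ≤ ∏ i : Fin d, ((e (i, 0)) : ℕ) * ((e (i, 1)) : ℕ) := by
    refine hW.trans ?_
    have : m ^ d = ∏ _i : Fin d, m := by
      rw [Finset.prod_const, Finset.card_univ, Fintype.card_fin]
    rw [this]
    apply Finset.prod_le_prod (fun i _ => Nat.zero_le _)
    intro i _
    refine hμm.trans ?_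
    rw [sq]
    exact Nat.mul_le_mul (hpr (i, 0)).2.1.le (hpr (i, 1)).2.1.le
  have hL : 0 < 4 * K * d * m + 1 := by omega
  have hF : ∀ v : Fin d → ℤ, (∀ i, v i ∈ U i) → ∑ i, f i (v i) < ((4 * K * d * m + 1 : ℕ) : ℤ) := by
    intro v hv
    have h1 : ∑ i, f i (v i) ≤ ∑ _i : Fin d, ((K * μ ^ 2 : ℕ) : ℤ) :=
      Finset.sum_le_sum (fun i _ => (hf i _ (hv i)).2)
    rw [Finset.sum_const, Finset.card_univ, Fintype.card_fin, nsmul_eq_mul] at h1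
    have h2 : d * (K * μ ^ 2) ≤ 4 * K * d * m := by
      have := Nat.mul_le_mul_left (d * K) hμm2
      nlinarith
    have h3 : (d : ℤ) * ((K * μ ^ 2 : ℕ) : ℤ) ≤ ((4 * K * d * m : ℕ) : ℤ) := by exact_mod_cast h2
    push_cast at h1 h3 ⊢
    linarith
  obtain ⟨A, hA, hAf, hAc⟩ := level3 (fun i : Fin d => ((e (i, 0)) : ℕ) * ((e (i, 1)) : ℕ)) hcop
    hq0 U f hU (fun i u hu => (hf i u hu).1) hAP (4 * K * d * m + 1) hL hF W hprod
  refine ⟨A, hA, hAf, le_trans ?_ hAc⟩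
  apply mul_le_mul_of_nonneg_right _ (by positivity)
  apply mul_le_mul_of_nonneg_left _ (by positivity)
  have : Real.exp (-((Real.log (240 / 71) + η) * d)) =
      ∏ _i : Fin d, Real.exp (-(Real.log (240 / 71) + η)) := by
    rw [Finset.prod_const, Finset.card_univ, Fintype.card_fin, ← Real.exp_nat_mul]
    congr 1
    ring
  rw [this]
  exact Finset.prod_le_prod (fun i _ => (Real.exp_pos _).le) (fun i _ => hcard i)

end Vale.Agent.P057.H525
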