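import Mathlib

set_option linter.all false

namespace Vale.Agent.P057.H525

/-- the body of the block -/
def Body (p r g x v : ℤ) : Prop :=
  0 ≤ v ∧ 2 * v + g ≤ r ∧ 4 * |x| ≤ p ∧ 5 * r * (4 * |x|) ≤ p * r + 12 * p * v

/-- the two horns of the block -/
def Horn (p r g x v : ℤ) : Prop :=
  r + g ≤ 2 * v ∧ 2 * |4 * |x| - p| ≤ p ∧ 5 * r * |4 * |x| - p| ≤ 12 * p * v - 4 * (p * r) ∧
    5 * r * |4 * |x| - p| < 10 * (p * r) - 12 * p * v

/-- the weight -/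
def wt (p r J x v : ℤ) : ℤ :=
  300 * v ^ 2 + (if 2 * v < r then 16 * x ^ 2 else J * (2 * v - r) + (4 * |x| - p) ^ 2)

theorem body_data {p r g x v : ℤ} (hr : 0 < r) (h : Body p r g x v) (hp2 : p % 2 = 1) :
    0 ≤ v ∧ 2 * v + g ≤ r ∧ 4 * x ≤ p - 1 ∧ -(4 * x) ≤ p - 1 ∧
      20 * (r * x) ≤ p * r + 12 * (p * v) ∧ -(20 * (r * x)) ≤ p * r + 12 * (p * v) := by
  obtain ⟨h1, h2, h3, h4⟩ := h
  have h5 := le_abs_self x
  have h6 := neg_le_abs x
  refine ⟨h1, h2, by omega, by omega, ?_, ?_⟩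
  · nlinarith [mul_le_mul_of_nonneg_left h5 hr.le]
  · nlinarith [mul_le_mul_of_nonneg_left h6 hr.le]

theorem horn_data {p r g x v : ℤ} (hr : 0 < r) (hp : 0 < p) (h : Horn p r g x v)
    (hp2 : p % 2 = 1) :
    ∃ e s : ℤ, (e = 1 ∨ e = -1) ∧ 4 * x = e * p + s ∧ r + g ≤ 2 * v ∧ 6 * v < 5 * r ∧
      2 * s ≤ p - 1 ∧ -(2 * s) ≤ p - 1 ∧
      5 * (r * s) ≤ 12 * (p * v) - 4 * (p * r) ∧ -(5 * (r * s)) ≤ 12 * (p * v) - 4 * (p * r) ∧
      5 * (r * s) < 10 * (p * r) - 12 * (p * v) ∧ -(5 * (r * s)) < 10 * (p * r) - 12 * (p * v) ∧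
      (4 * |x| - p) ^ 2 = s ^ 2 := by
  obtain ⟨h1, h2, h3, h4⟩ := h
  have habs : 0 ≤ |4 * |x| - p| := abs_nonneg _
  have hv : 6 * v < 5 * r := by
    have h5 : 0 ≤ 5 * r * |4 * |x| - p| := by positivity
    have h6 : 0 < 2 * p * (5 * r - 6 * v) := by nlinarith
    have h7 : 0 < 5 * r - 6 * v := by
      by_contra hcon
      push Not at hcon
      nlinarith
    omega
  rcases le_or_gt 0 x with hx | hx
  · rw [abs_of_nonneg hx] at h2 h3 h4 ⊢
    have h5 := le_abs_self (4 * x - p)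
    have h6 := neg_le_abs (4 * x - p)
    have h7 := mul_le_mul_of_nonneg_left h5 hr.le
    have h8 := mul_le_mul_of_nonneg_left h6 hr.le
    refine ⟨1, 4 * x - p, Or.inl rfl, by ring, h1, hv, by omega, by omega, ?_, ?_, ?_, ?_, rfl⟩
    · linarith
    · linarith
    · linarith
    · linarith
  · rw [abs_of_neg hx] at h2 h3 h4 ⊢
    have h5 := le_abs_self (4 * -x - p)
    have h6 := neg_le_abs (4 * -x - p)
    have h7 := mul_le_mul_of_nonneg_left h5 hr.le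
    have h8 := mul_le_mul_of_nonneg_left h6 hr.le
    refine ⟨-1, 4 * x + p, Or.inr rfl, by ring, h1, hv, by omega, by omega, ?_, ?_, ?_, ?_, by ring⟩
    · linarith
    · linarith
    · linarith
    · linarith

theorem wt_body {p r g J x v : ℤ} (hg : 0 < g) (h : 2 * v + g ≤ r) :
    wt p r J x v = 300 * v ^ 2 + 16 * x ^ 2 := by
  unfold wt
  rw [if_pos (by omega)]

theorem wt_horn {p r g J x v s : ℤ} (hg : 0 < g) (h : r + g ≤ 2 * v)
    (hs : (4 * |x| - p) ^ 2 = s ^ 2) :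
    wt p r J x v = 300 * v ^ 2 + (J * (2 * v - r) + s ^ 2) := by
  unfold wt
  rw [if_neg (by omega), hs]

/-- progressions wrapping downwards do not exist, body-body-horn -/
theorem no_bbh {p r x1 v1 x2 v2 x3 v3 k e s : ℤ} (hr : 0 < r) (hp : 0 < p)
    (hk : -1 ≤ k ∧ k ≤ 1) (he : e = 1 ∨ e = -1) (hx : x1 + x3 - 2 * x2 = p * k)
    (hv : v1 + v3 - 2 * v2 = -r) (h2 : 4 * x2 = e * p + s)
    (a1 : 20 * (r * x1) ≤ p * r + 12 * (p * v1)) (a2 : -(20 * (r * x1)) ≤ p * r + 12 * (p * v1))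
    (b1 : 20 * (r * x3) ≤ p * r + 12 * (p * v3)) (b2 : -(20 * (r * x3)) ≤ p * r + 12 * (p * v3))
    (c1 : 5 * (r * s) < 10 * (p * r) - 12 * (p * v2))
    (c2 : -(5 * (r * s)) < 10 * (p * r) - 12 * (p * v2)) : False := by
  have hpr : 0 < p * r := by positivity
  have e1 : 4 * x1 + 4 * x3 - 2 * s = (4 * k + 2 * e) * p := by linarith
  have e2 : 20 * (r * x1) + 20 * (r * x3) - 10 * (r * s) = 5 * ((4 * k + 2 * e) * (p * r)) := by
    have : 5 * r * (4 * x1 + 4 * x3 - 2 * s) = 5 * r * ((4 * k + 2 * e) * p) := by rw [e1]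
    linarith
  have e3 : 2 * (p * v2) = p * v1 + p * v3 + p * r := by
    have : p * (v1 + v3 - 2 * v2) = p * (-r) := by rw [hv]
    linarith
  obtain ⟨hk1, hk2⟩ := hk
  interval_cases k <;> rcases he with rfl | rfl <;> norm_num at e2 <;> linarith

/-- progressions wrapping downwards do not exist, horn-body-horn -/
theorem no_hbh {p r x1 v1 x2 v2 x3 v3 k e1 s1 e2 s2 : ℤ} (hr : 0 < r) (hp : 0 < p)
    (hk : -1 ≤ k ∧ k ≤ 1) (he1 : e1 = 1 ∨ e1 = -1) (he2 : e2 = 1 ∨ e2 = -1)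
    (hx : x1 + x3 - 2 * x2 = p * k)
    (hv : v1 + v3 - 2 * v2 = -r) (h1 : 4 * x1 = e1 * p + s1) (h2 : 4 * x2 = e2 * p + s2)
    (a1 : 5 * (r * s1) ≤ 12 * (p * v1) - 4 * (p * r))
    (a2 : -(5 * (r * s1)) ≤ 12 * (p * v1) - 4 * (p * r))
    (b1 : 20 * (r * x3) ≤ p * r + 12 * (p * v3)) (b2 : -(20 * (r * x3)) ≤ p * r + 12 * (p * v3))
    (c1 : 5 * (r * s2) < 10 * (p * r) - 12 * (p * v2))
    (c2 : -(5 * (r * s2)) < 10 * (p * r) - 12 * (p * v2)) : False := by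
  have hpr : 0 < p * r := by positivity
  have f1 : s1 + 4 * x3 - 2 * s2 = (4 * k + 2 * e2 - e1) * p := by linarith
  have f2 : 5 * (r * s1) + 20 * (r * x3) - 10 * (r * s2) =
      5 * ((4 * k + 2 * e2 - e1) * (p * r)) := by
    have : 5 * r * (s1 + 4 * x3 - 2 * s2) = 5 * r * ((4 * k + 2 * e2 - e1) * p) := by rw [f1]
    linarith
  have f3 : 2 * (p * v2) = p * v1 + p * v3 + p * r := by
    have : p * (v1 + v3 - 2 * v2) = p * (-r) := by rw [hv]
    linarith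
  obtain ⟨hk1, hk2⟩ := hk
  interval_cases k <;> rcases he1 with rfl | rfl <;> rcases he2 with rfl | rfl <;>
    norm_num at f2 <;> linarith

end Vale.Agent.P057.H525
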