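import Vale.Agent.P057.H525.Blk

set_option linter.all false

namespace Vale.Agent.P057.H525

/-- the block -/
def Pt (p r g x v : ℤ) : Prop := Body p r g x v ∨ Horn p r g x v

theorem pt_range {p r g x v : ℤ} (hr : 0 < r) (hp : 0 < p) (hg : 0 < g) (hp2 : p % 2 = 1)
    (h : Pt p r g x v) : 0 ≤ v ∧ 6 * v < 5 * r ∧ 8 * x ≤ 3 * p ∧ -(8 * x) ≤ 3 * p := by
  rcases h with h | h
  · obtain ⟨h1, h2, h3, h4, h5, h6⟩ := body_data hr h hp2
    refine ⟨h1, by omega, by omega, by omega⟩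
  · obtain ⟨e, s, he, h1, h2, h3, h4, h5, h6, h7, h8, h9, h10⟩ := horn_data hr hp h hp2
    rcases he with rfl | rfl <;> refine ⟨by omega, h3, by omega, by omega⟩

theorem wt_lb1 {p r g J x v : ℤ} (hg : 0 < g) (hJ : 0 ≤ J) (h : Pt p r g x v) :
    300 * v ^ 2 ≤ wt p r J x v := by
  unfold wt
  split_ifs with h1
  · have := sq_nonneg x
    linarith
  · have : 0 ≤ J * (2 * v - r) := mul_nonneg hJ (by omega)
    have := sq_nonneg (4 * |x| - p)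
    linarith

theorem wt_lb2 {p r g J x v : ℤ} (hg : 0 < g) (hJ : 0 ≤ J) (h : Pt p r g x v) :
    300 * v ^ 2 + J * (2 * v - r) ≤ wt p r J x v := by
  unfold wt
  split_ifs with h1
  · have : 0 ≤ J * (r - 2 * v) := mul_nonneg hJ (by omega)
    have := sq_nonneg x
    linarith
  · have := sq_nonneg (4 * |x| - p)
    linarith

theorem wt_ub_body {p r g J x v : ℤ} (hr : 0 < r) (hp : 0 < p) (hg : 0 < g) (hp2 : p % 2 = 1)
    (h : Body p r g x v) : wt p r J x v ≤ 300 * v ^ 2 + p ^ 2 := by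
  obtain ⟨h1, h2, h3, h4, h5, h6⟩ := body_data hr h hp2
  rw [wt_body hg h2]
  have : (4 * x) ^ 2 ≤ p ^ 2 := by
    apply sq_le_sq'
    · omega
    · omega
  linarith

theorem wt_ub_horn {p r g J x v : ℤ} (hr : 0 < r) (hp : 0 < p) (hg : 0 < g) (hp2 : p % 2 = 1)
    (h : Horn p r g x v) : wt p r J x v ≤ 300 * v ^ 2 + J * (2 * v - r) + p ^ 2 := by
  obtain ⟨e, s, he, h1, h2, h3, h4, h5, h6, h7, h8, h9, h10⟩ := horn_data hr hp h hp2
  rw [wt_horn hg h2 h10]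
  have : s ^ 2 ≤ p ^ 2 := by
    apply sq_le_sq'
    · omega
    · omega
  linarith

theorem sq_conv {r v1 v2 v3 : ℤ} (hv : v1 + v3 - 2 * v2 = 0) :
    v1 ^ 2 + v3 ^ 2 - 2 * v2 ^ 2 = 2 * (v2 - v1) ^ 2 := by
  have : v3 = 2 * v2 - v1 := by omega
  subst this
  ring

theorem mixed {p r g J : ℤ} (hp : 0 < p) (hr : 0 < r) (hp2 : p % 2 = 1)
    (hg : 0 < g) (hJ0 : 0 ≤ J) (hJ : 2 * p ^ 2 < J * g)
    {x1 v1 x2 v2 x3 v3 : ℤ} (h1 : Body p r g x1 v1) (h3 : Horn p r g x3 v3) (h2 : Pt p r g x2 v2)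
    (hv : v1 + v3 - 2 * v2 = 0) :
    0 < wt p r J x1 v1 + wt p r J x3 v3 - 2 * wt p r J x2 v2 := by
  have f1 := wt_lb1 hg hJ0 (Or.inl h1 : Pt p r g x1 v1)
  have f3 := wt_lb2 hg hJ0 (Or.inr h3 : Pt p r g x3 v3)
  have hc := @sq_conv r _ _ _ hv
  have hsq := sq_nonneg (v2 - v1)
  obtain ⟨a1, a2, a3, a4, a5, a6⟩ := body_data hr h1 hp2
  obtain ⟨e, s, he, b1, b2, b3, b4, b5, b6, b7, b8, b9, b10⟩ := horn_data hr hp h3 hp2
  rcases h2 with h2 | h2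
  · have f2 := wt_ub_body (J := J) hr hp hg hp2 h2
    have h5 : J * g ≤ J * (2 * v3 - r) := mul_le_mul_of_nonneg_left (by omega) hJ0
    linarith
  · have f2 := wt_ub_horn (J := J) hr hp hg hp2 h2
    have h5 : J * g ≤ J * (r - 2 * v1) := mul_le_mul_of_nonneg_left (by omega) hJ0
    have h6 : J * (2 * v3 - r) - 2 * (J * (2 * v2 - r)) = J * (r - 2 * v1) := by
      have : v2 * 2 = v1 + v3 := by omega
      have h7 : J * (v2 * 2) = J * (v1 + v3) := by rw [this]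
      linarith
    linarith

theorem up {p r g J : ℤ} (hp : 0 < p) (hr : 0 < r) (hp2 : p % 2 = 1)
    (hg : 0 < g) (hJ0 : 0 ≤ J) (hpr : 2 * p ^ 2 < 150 * r ^ 2)
    {x1 v1 x2 v2 x3 v3 : ℤ} (h1 : Pt p r g x1 v1) (h3 : Pt p r g x3 v3) (h2 : Pt p r g x2 v2)
    (hv : v1 + v3 - 2 * v2 = r) :
    0 < wt p r J x1 v1 + wt p r J x3 v3 - 2 * wt p r J x2 v2 := by
  obtain ⟨hv20, -, -, -⟩ := pt_range hr hp hg hp2 h2
  have hvv : v1 + v3 = 2 * v2 + r := by omega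
  have hc : 150 * r ^ 2 ≤ 300 * (v1 ^ 2 + v3 ^ 2 - 2 * v2 ^ 2) := by
    have h4 : 0 ≤ (v1 - v3) ^ 2 := sq_nonneg _
    have h5 : (v1 + v3) ^ 2 = (2 * v2 + r) ^ 2 := by rw [hvv]
    have h6 : 0 ≤ v2 * r := by positivity
    nlinarith
  rcases h2 with h2 | h2
  · have f1 := wt_lb1 hg hJ0 h1
    have f3 := wt_lb1 hg hJ0 h3
    have f2 := wt_ub_body (J := J) hr hp hg hp2 h2
    linarith
  · have f1 := wt_lb2 hg hJ0 h1
    have f3 := wt_lb2 hg hJ0 h3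
    have f2 := wt_ub_horn (J := J) hr hp hg hp2 h2
    have h6 : J * (2 * v1 - r) + J * (2 * v3 - r) - 2 * (J * (2 * v2 - r)) = 2 * (J * r) := by
      have h7 : J * (v1 + v3) = J * (2 * v2 + r) := by rw [hvv]
      linarith
    have h8 : 0 ≤ J * r := by positivity
    linarith

theorem bbb {p r g J : ℤ} (hp : 0 < p) (hr : 0 < r) (hp2 : p % 2 = 1) (hg : 0 < g)
    {x1 v1 x2 v2 x3 v3 k : ℤ} (h1 : Body p r g x1 v1) (h3 : Body p r g x3 v3)
    (h2 : Body p r g x2 v2) (hk : -1 ≤ k ∧ k ≤ 1) (hx : x1 + x3 - 2 * x2 = p * k)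
    (hv : v1 + v3 - 2 * v2 = 0) :
    0 ≤ wt p r J x1 v1 + wt p r J x3 v3 - 2 * wt p r J x2 v2 ∧
      (wt p r J x1 v1 + wt p r J x3 v3 - 2 * wt p r J x2 v2 = 0 → x1 = x3 ∧ v1 = v3) := by
  obtain ⟨a1, a2, a3, a4, a5, a6⟩ := body_data hr h1 hp2
  obtain ⟨b1, b2, b3, b4, b5, b6⟩ := body_data hr h2 hp2
  obtain ⟨c1, c2, c3, c4, c5, c6⟩ := body_data hr h3 hp2
  have hk0 : k = 0 := by
    obtain ⟨hk1, hk2⟩ := hk
    interval_cases k
    · omega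
    · rfl
    · omega
  rw [hk0, mul_zero] at hx
  rw [wt_body hg a2, wt_body hg b2, wt_body hg c2]
  have e1 := @sq_conv r _ _ _ hv
  have e2 := @sq_conv r _ _ _ hx
  have e3 := sq_nonneg (v2 - v1)
  have e4 := sq_nonneg (x2 - x1)
  have key : 300 * v1 ^ 2 + 16 * x1 ^ 2 + (300 * v3 ^ 2 + 16 * x3 ^ 2) -
      2 * (300 * v2 ^ 2 + 16 * x2 ^ 2) = 600 * (v2 - v1) ^ 2 + 32 * (x2 - x1) ^ 2 := by linarith
  rw [key]
  refine ⟨by positivity, fun h => ?_⟩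
  have g1 : (v2 - v1) ^ 2 = 0 := by linarith
  have g2 : (x2 - x1) ^ 2 = 0 := by linarith
  have g3 : v2 - v1 = 0 := by simpa using g1
  have g4 : x2 - x1 = 0 := by simpa using g2
  omega

theorem hhh {p r g J : ℤ} (hp : 0 < p) (hr : 0 < r) (hp2 : p % 2 = 1) (hg : 0 < g)
    {x1 v1 x2 v2 x3 v3 k : ℤ} (h1 : Horn p r g x1 v1) (h3 : Horn p r g x3 v3)
    (h2 : Horn p r g x2 v2) (hk : -1 ≤ k ∧ k ≤ 1) (hx : x1 + x3 - 2 * x2 = p * k)
    (hv : v1 + v3 - 2 * v2 = 0) :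
    0 ≤ wt p r J x1 v1 + wt p r J x3 v3 - 2 * wt p r J x2 v2 ∧
      (wt p r J x1 v1 + wt p r J x3 v3 - 2 * wt p r J x2 v2 = 0 → x1 = x3 ∧ v1 = v3) := by
  obtain ⟨e1, s1, he1, a1, a2, a3, a4, a5, a6, a7, a8, a9, a10⟩ := horn_data hr hp h1 hp2
  obtain ⟨e2, s2, he2, b1, b2, b3, b4, b5, b6, b7, b8, b9, b10⟩ := horn_data hr hp h2 hp2
  obtain ⟨e3, s3, he3, c1, c2, c3, c4, c5, c6, c7, c8, c9, c10⟩ := horn_data hr hp h3 hp2
  have hs : s1 + s3 - 2 * s2 = 0 ∧ e1 = e3 := by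
    have e4 : s1 + s3 - 2 * s2 = (4 * k + 2 * e2 - e1 - e3) * p := by linarith
    obtain ⟨hk1, hk2⟩ := hk
    interval_cases k <;> rcases he1 with rfl | rfl <;> rcases he2 with rfl | rfl <;>
      rcases he3 with rfl | rfl <;> norm_num at e4 <;> constructor <;> omega
  obtain ⟨hs, he⟩ := hs
  rw [wt_horn hg a2 a10, wt_horn hg b2 b10, wt_horn hg c2 c10]
  have e1' := @sq_conv r _ _ _ hv
  have e2' := @sq_conv r _ _ _ hs
  have key : 300 * v1 ^ 2 + (J * (2 * v1 - r) + s1 ^ 2) + (300 * v3 ^ 2 + (J * (2 * v3 - r) + s3 ^ 2)) -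
      2 * (300 * v2 ^ 2 + (J * (2 * v2 - r) + s2 ^ 2)) =
      600 * (v2 - v1) ^ 2 + 2 * (s2 - s1) ^ 2 := by
    have h7 : J * (v1 + v3 - 2 * v2) = 0 := by rw [hv, mul_zero]
    linarith
  rw [key]
  refine ⟨by positivity, fun h => ?_⟩
  have e3 := sq_nonneg (v2 - v1)
  have e4 := sq_nonneg (s2 - s1)
  have g1 : (v2 - v1) ^ 2 = 0 := by linarith
  have g2 : (s2 - s1) ^ 2 = 0 := by linarith
  have g3 : v2 - v1 = 0 := by simpa using g1
  have g4 : s2 - s1 = 0 := by simpa using g2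
  have g5 : s1 = s3 := by omega
  subst he
  refine ⟨?_, by omega⟩
  have : 4 * x1 = 4 * x3 := by rw [a1, c1, g5]
  omega

theorem wt_main {p r g J : ℤ} (hp : 0 < p) (hr : 0 < r) (hp2 : p % 2 = 1)
    (hg : 0 < g) (hJ0 : 0 ≤ J) (hJ : 2 * p ^ 2 < J * g) (hpr : 2 * p ^ 2 < 150 * r ^ 2)
    {x1 v1 x2 v2 x3 v3 : ℤ} (h1 : Pt p r g x1 v1) (h3 : Pt p r g x3 v3) (h2 : Pt p r g x2 v2)
    (hx : p ∣ x1 + x3 - 2 * x2) (hv : r ∣ v1 + v3 - 2 * v2) :
    0 ≤ wt p r J x1 v1 + wt p r J x3 v3 - 2 * wt p r J x2 v2 ∧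
      (wt p r J x1 v1 + wt p r J x3 v3 - 2 * wt p r J x2 v2 = 0 → x1 = x3 ∧ v1 = v3) := by
  obtain ⟨k, hk⟩ := hx
  obtain ⟨l, hl⟩ := hv
  obtain ⟨r1, r2, r3, r4⟩ := pt_range hr hp hg hp2 h1
  obtain ⟨s1, s2, s3, s4⟩ := pt_range hr hp hg hp2 h2
  obtain ⟨t1, t2, t3, t4⟩ := pt_range hr hp hg hp2 h3
  have hkb : -1 ≤ k ∧ k ≤ 1 := by
    constructor
    · by_contra hcon
      push Not at hcon
      have : k ≤ -2 := by omega
      nlinarith
    · by_contra hcon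
      push Not at hcon
      have : 2 ≤ k := by omega
      nlinarith
  have hlb : l = -1 ∨ l = 0 ∨ l = 1 := by
    have h5 : -2 < l := by
      by_contra hcon
      push Not at hcon
      nlinarith
    have h6 : l < 2 := by
      by_contra hcon
      push Not at hcon
      nlinarith
    omega
  rcases hlb with rfl | rfl | rfl
  · exfalso
    have hl' : v1 + v3 - 2 * v2 = -r := by omega
    rcases h2 with h2 | h2
    · obtain ⟨b1, b2, b3, b4, b5, b6⟩ := body_data hr h2 hp2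
      omega
    · obtain ⟨e2, u2, he2, b1, b2, b3, b4, b5, b6, b7, b8, b9, b10⟩ := horn_data hr hp h2 hp2
      rcases h1 with h1 | h1 <;> rcases h3 with h3 | h3
      · obtain ⟨a1, a2, a3, a4, a5, a6⟩ := body_data hr h1 hp2
        obtain ⟨c1, c2, c3, c4, c5, c6⟩ := body_data hr h3 hp2
        exact no_bbh hr hp hkb he2 hk hl' b1 a5 a6 c5 c6 b8 b9
      · obtain ⟨a1, a2, a3, a4, a5, a6⟩ := body_data hr h1 hp2
        obtain ⟨e3, u3, he3, c1, c2, c3, c4, c5, c6, c7, c8, c9, c10⟩ := horn_data hr hp h3 hp2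
        exact no_hbh hr hp hkb he3 he2 (by linarith : x3 + x1 - 2 * x2 = p * k)
          (by linarith : v3 + v1 - 2 * v2 = -r) c1 b1 c6 c7 a5 a6 b8 b9
      · obtain ⟨e1, u1, he1, a1, a2, a3, a4, a5, a6, a7, a8, a9, a10⟩ := horn_data hr hp h1 hp2
        obtain ⟨c1, c2, c3, c4, c5, c6⟩ := body_data hr h3 hp2
        exact no_hbh hr hp hkb he1 he2 hk hl' a1 b1 a6 a7 c5 c6 b8 b9
      · obtain ⟨e1, u1, he1, a1, a2, a3, a4, a5, a6, a7, a8, a9, a10⟩ := horn_data hr hp h1 hp2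
        obtain ⟨e3, u3, he3, c1, c2, c3, c4, c5, c6, c7, c8, c9, c10⟩ := horn_data hr hp h3 hp2
        omega
  · have hl' : v1 + v3 - 2 * v2 = 0 := by omega
    rcases h1 with h1 | h1 <;> rcases h3 with h3 | h3
    · rcases h2 with h2 | h2
      · exact bbb hp hr hp2 hg h1 h3 h2 hkb hk hl'
      · exfalso
        obtain ⟨a1, a2, a3, a4, a5, a6⟩ := body_data hr h1 hp2
        obtain ⟨c1, c2, c3, c4, c5, c6⟩ := body_data hr h3 hp2
        obtain ⟨e2, u2, he2, b1, b2, b3, b4, b5, b6, b7, b8, b9, b10⟩ := horn_data hr hp h2 hp2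
        omega
    · have := mixed hp hr hp2 hg hJ0 hJ h1 h3 h2 hl'
      exact ⟨this.le, fun h => absurd h this.ne'⟩
    · have := mixed hp hr hp2 hg hJ0 hJ h3 h1 h2 (by linarith : v3 + v1 - 2 * v2 = 0)
      have h5 : 0 < wt p r J x1 v1 + wt p r J x3 v3 - 2 * wt p r J x2 v2 := by linarith
      exact ⟨h5.le, fun h => absurd h h5.ne'⟩
    · rcases h2 with h2 | h2
      · exfalso
        obtain ⟨e1, u1, he1, a1, a2, a3, a4, a5, a6, a7, a8, a9, a10⟩ := horn_data hr hp h1 hp2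
        obtain ⟨e3, u3, he3, c1, c2, c3, c4, c5, c6, c7, c8, c9, c10⟩ := horn_data hr hp h3 hp2
        obtain ⟨b1, b2, b3, b4, b5, b6⟩ := body_data hr h2 hp2
        omega
      · exact hhh hp hr hp2 hg h1 h3 h2 hkb hk hl'
  · have := up hp hr hp2 hg hJ0 hpr h1 h3 h2 (by omega : v1 + v3 - 2 * v2 = r)
    exact ⟨this.le, fun h => absurd h this.ne'⟩

theorem wt_nonneg {p r g J x v : ℤ} (hg : 0 < g) (hJ : 0 ≤ J) (h : Pt p r g x v) :
    0 ≤ wt p r J x v := by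
  have := wt_lb1 hg hJ h
  have := sq_nonneg v
  linarith

theorem wt_ub {p r g J x v : ℤ} (hr : 0 < r) (hp : 0 < p) (hg : 0 < g) (hp2 : p % 2 = 1)
    (hJ : 0 ≤ J) (h : Pt p r g x v) : wt p r J x v ≤ 300 * r ^ 2 + J * r + p ^ 2 := by
  obtain ⟨h1, h2, -, -⟩ := pt_range hr hp hg hp2 h
  have hvr : v ≤ r := by omega
  have h5 : v ^ 2 ≤ r ^ 2 := pow_le_pow_left₀ h1 hvr 2
  rcases h with h | h
  · have := wt_ub_body (J := J) hr hp hg hp2 h
    have : 0 ≤ J * r := by positivity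
    linarith
  · have := wt_ub_horn (J := J) hr hp hg hp2 h
    have : J * (2 * v - r) ≤ J * r := mul_le_mul_of_nonneg_left (by omega) hJ
    linarith

theorem pt_inj {p r g x v x' v' : ℤ} (hr : 0 < r) (hp : 0 < p) (hg : 0 < g) (hp2 : p % 2 = 1)
    (h : Pt p r g x v) (h' : Pt p r g x' v') (hx : p ∣ x - x') (hv : r ∣ v - v') :
    x = x' ∧ v = v' := by
  obtain ⟨r1, r2, r3, r4⟩ := pt_range hr hp hg hp2 h
  obtain ⟨s1, s2, s3, s4⟩ := pt_range hr hp hg hp2 h'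
  have h1 := Int.eq_zero_of_abs_lt_dvd hx (by rw [abs_lt]; constructor <;> omega)
  have h2 := Int.eq_zero_of_abs_lt_dvd hv (by rw [abs_lt]; constructor <;> omega)
  omega

end Vale.Agent.P057.H525
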