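import Vale.Agent.P057.H525.Blk2

set_option linter.all false

open Finset

namespace Vale.Agent.P057.H525

open Classical in
/-- one row of the block -/
noncomputable def X (p r g v : ℤ) : Finset ℤ := (Finset.Icc (-p) p).filter (fun x => Pt p r g x v)

theorem mem_X {p r g v x : ℤ} : x ∈ X p r g v ↔ (-p ≤ x ∧ x ≤ p) ∧ Pt p r g x v := by
  classical
  unfold X
  rw [Finset.mem_filter, Finset.mem_Icc]

theorem card_body {p r g v : ℤ} (ρ : ℝ) (h : ∀ x : ℤ, 4 * |(x : ℝ)| ≤ ρ → Body p r g x v)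
    (hρ : ρ ≤ p) (hρ0 : 0 ≤ ρ) : ρ / 2 - 1 ≤ (X p r g v).card := by
  have hsub : Finset.Icc (-⌊ρ / 4⌋) ⌊ρ / 4⌋ ⊆ X p r g v := by
    intro x hx
    rw [Finset.mem_Icc] at hx
    rw [mem_X]
    have h1 : ((⌊ρ / 4⌋ : ℤ) : ℝ) ≤ ρ / 4 := Int.floor_le _
    have h2 : (x : ℝ) ≤ ⌊ρ / 4⌋ := by exact_mod_cast hx.2
    have h3 : (-(⌊ρ / 4⌋ : ℤ) : ℝ) ≤ x := by exact_mod_cast hx.1
    have h4 : |(x : ℝ)| ≤ ρ / 4 := by
      rw [abs_le]
      constructor <;> linarith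
    refine ⟨?_, Or.inl (h x (by linarith))⟩
    have h5 := abs_le.1 h4
    constructor
    · have : (-(p : ℝ)) ≤ x := by linarith [h5.1]
      exact_mod_cast this
    · have : (x : ℝ) ≤ p := by linarith [h5.2]
      exact_mod_cast this
  have h1 := Finset.card_le_card hsub
  rw [Int.card_Icc] at h1
  have h2 : ρ / 4 < ⌊ρ / 4⌋ + 1 := Int.lt_floor_add_one _
  have h3 : ((⌊ρ / 4⌋ + 1 - -⌊ρ / 4⌋ : ℤ) : ℝ) ≤ ((X p r g v).card : ℝ) := by
    have h4 : (⌊ρ / 4⌋ + 1 - -⌊ρ / 4⌋ : ℤ) ≤ ((⌊ρ / 4⌋ + 1 - -⌊ρ / 4⌋).toNat : ℤ) :=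
      Int.self_le_toNat _
    have h5 : ((⌊ρ / 4⌋ + 1 - -⌊ρ / 4⌋).toNat : ℤ) ≤ ((X p r g v).card : ℤ) := by
      exact_mod_cast h1
    exact_mod_cast h4.trans h5
  push_cast at h3
  linarith

theorem card_horn {p r g v : ℤ} (ρ : ℝ) (h : ∀ x : ℤ, |4 * |(x : ℝ)| - p| ≤ ρ → Horn p r g x v)
    (hρ : ρ < p) (hρ0 : 0 ≤ ρ) : ρ - 2 ≤ (X p r g v).card := by
  have hsub1 : Finset.Icc ⌈(p - ρ) / 4⌉ ⌊(p + ρ) / 4⌋ ⊆ (X p r g v).filter (fun x => 0 < x) := by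
    intro x hx
    rw [Finset.mem_Icc] at hx
    have h2 : (x : ℝ) ≤ (p + ρ) / 4 := Int.le_floor.1 hx.2
    have h3 : (p - ρ) / 4 ≤ x := Int.ceil_le.1 hx.1
    have h0 : (0 : ℝ) < x := by linarith
    rw [Finset.mem_filter, mem_X]
    refine ⟨⟨?_, Or.inr (h x ?_)⟩, by exact_mod_cast h0⟩
    · constructor
      · have : (-(p : ℝ)) ≤ x := by linarith
        exact_mod_cast this
      · have : (x : ℝ) ≤ p := by linarith
        exact_mod_cast this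
    · rw [abs_of_pos h0, abs_le]
      constructor <;> linarith
  have hsub2 : (Finset.Icc ⌈(p - ρ) / 4⌉ ⌊(p + ρ) / 4⌋).image (fun x => -x) ⊆
      (X p r g v).filter (fun x => ¬ 0 < x) := by
    intro y hy
    obtain ⟨x, hx, rfl⟩ := Finset.mem_image.1 hy
    rw [Finset.mem_Icc] at hx
    have h2 : (x : ℝ) ≤ (p + ρ) / 4 := Int.le_floor.1 hx.2
    have h3 : (p - ρ) / 4 ≤ x := Int.ceil_le.1 hx.1
    have h0 : (0 : ℝ) < x := by linarith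
    rw [Finset.mem_filter, mem_X]
    have h0' : 0 < x := by exact_mod_cast h0
    refine ⟨⟨?_, Or.inr (h _ ?_)⟩, by omega⟩
    · constructor
      · have : (x : ℝ) ≤ p := by linarith
        have h5 : x ≤ p := by exact_mod_cast this
        omega
      · have : (-(p : ℝ)) ≤ x := by linarith
        have h5 : -p ≤ x := by exact_mod_cast this
        omega
    · push_cast
      rw [abs_neg, abs_of_pos h0, abs_le]
      constructor <;> linarith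
  have h1 := Finset.card_le_card hsub1
  have h2 := Finset.card_le_card hsub2
  rw [Finset.card_image_of_injective _ neg_injective] at h2
  have h3 := Finset.card_filter_add_card_filter_not (s := X p r g v) (fun x => 0 < x)
  rw [Int.card_Icc] at h1 h2
  have h4 : (⌊(p + ρ) / 4⌋ + 1 - ⌈(p - ρ) / 4⌉ : ℤ) ≤
      ((⌊(p + ρ) / 4⌋ + 1 - ⌈(p - ρ) / 4⌉).toNat : ℤ) := Int.self_le_toNat _
  have h5 : 2 * (⌊(p + ρ) / 4⌋ + 1 - ⌈(p - ρ) / 4⌉ : ℤ) ≤ ((X p r g v).card : ℤ) := by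
    rw [← h3]
    push_cast
    have h1' : ((⌊(p + ρ) / 4⌋ + 1 - ⌈(p - ρ) / 4⌉).toNat : ℤ) ≤
      (((X p r g v).filter (fun x => 0 < x)).card : ℤ) := by exact_mod_cast h1
    have h2' : ((⌊(p + ρ) / 4⌋ + 1 - ⌈(p - ρ) / 4⌉).toNat : ℤ) ≤
      (((X p r g v).filter (fun x => ¬ 0 < x)).card : ℤ) := by exact_mod_cast h2
    linarith
  have h6 : (2 * (⌊(p + ρ) / 4⌋ + 1 - ⌈(p - ρ) / 4⌉) : ℝ) ≤ ((X p r g v).card : ℝ) := by
    exact_mod_cast h5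
  have h7 : (p + ρ) / 4 < ⌊(p + ρ) / 4⌋ + 1 := Int.lt_floor_add_one _
  have h8 : (⌈(p - ρ) / 4⌉ : ℝ) < (p - ρ) / 4 + 1 := Int.ceil_lt_add_one _
  linarith

theorem sum_lin (a b : ℝ) (A B : ℕ) (h : A ≤ B) :
    ∑ v ∈ Finset.Ico A B, (a + b * (v : ℝ)) = ((B : ℝ) - A) * (a + b * ((A : ℝ) + B - 1) / 2) := by
  induction B, h using Nat.le_induction with
  | base => simp
  | succ n hn ih =>
    rw [Finset.sum_Ico_succ_top hn, ih]
    push_cast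
    ring

theorem sum_chain (f : ℕ → ℝ) (hf : ∀ n, 0 ≤ f n) (n1 m1 n2 n3 n4 m4 n5 m5 n6 R : ℕ)
    (h1 : n1 ≤ m1) (h2 : m1 ≤ n2) (h3 : n2 ≤ n3) (h4 : n3 ≤ n4) (h5 : n4 ≤ m4) (h6 : m4 ≤ n5)
    (h7 : n5 ≤ m5) (h8 : m5 ≤ n6) (h9 : n6 ≤ R) :
    ∑ v ∈ Finset.Ico 0 n1, f v + ∑ v ∈ Finset.Ico m1 n2, f v + ∑ v ∈ Finset.Ico n3 n4, f v +
      ∑ v ∈ Finset.Ico m4 n5, f v + ∑ v ∈ Finset.Ico m5 n6, f v ≤ ∑ v ∈ Finset.range R, f v := by
  rw [Finset.range_eq_Ico]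
  have nn : ∀ a b : ℕ, 0 ≤ ∑ v ∈ Finset.Ico a b, f v :=
    fun a b => Finset.sum_nonneg (fun i _ => hf i)
  have e1 := Finset.sum_Ico_consecutive f (Nat.zero_le n1) h1
  have e2 := Finset.sum_Ico_consecutive f (Nat.zero_le m1) h2
  have e3 := Finset.sum_Ico_consecutive f (Nat.zero_le n2) h3
  have e4 := Finset.sum_Ico_consecutive f (Nat.zero_le n3) h4
  have e5 := Finset.sum_Ico_consecutive f (Nat.zero_le n4) h5
  have e6 := Finset.sum_Ico_consecutive f (Nat.zero_le m4) h6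
  have e7 := Finset.sum_Ico_consecutive f (Nat.zero_le n5) h7
  have e8 := Finset.sum_Ico_consecutive f (Nat.zero_le m5) h8
  have e9 := Finset.sum_Ico_consecutive f (Nat.zero_le n6) h9
  have g1 := nn n1 m1
  have g2 := nn n2 n3
  have g3 := nn n4 m4
  have g4 := nn n5 m5
  have g5 := nn n6 R
  linarith

end Vale.Agent.P057.H525
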