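import Vale.Agent.P057.H525.Card

set_option linter.all false

open Finset

namespace Vale.Agent.P057.H525

theorem row1 {p r g v : ℕ} (hp : 0 < p) (hr : 0 < r) (h1 : 2 * v + g ≤ r) (h2 : 3 * v ≤ r) :
    ((p : ℝ) / 10 - 1) + (6 * p / (5 * r)) * v ≤ (X p r g v).card := by
  have hpR : (0 : ℝ) < p := by exact_mod_cast hp
  have hrR : (0 : ℝ) < r := by exact_mod_cast hr
  have hv0 : (0 : ℝ) ≤ v := by positivity
  have h2R : 3 * (v : ℝ) ≤ r := by exact_mod_cast h2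
  have e1 : ((p : ℝ) / 5 + (12 * p / (5 * r)) * v) / 2 - 1 =
      ((p : ℝ) / 10 - 1) + (6 * p / (5 * r)) * v := by
    field_simp
    ring
  rw [← e1]
  have hle : (p : ℝ) / 5 + (12 * p / (5 * r)) * v ≤ p := by
    have : (12 * p / (5 * r)) * (v : ℝ) ≤ (12 * p / (5 * r)) * (r / 3) := by
      apply mul_le_mul_of_nonneg_left _ (by positivity)
      linarith
    have e2 : (12 * (p : ℝ) / (5 * r)) * (r / 3) = 4 * p / 5 := by
      field_simp
      ring
    linarith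
  apply card_body
  · intro x hx
    have hx1 : 4 * |(x : ℝ)| ≤ p := hx.trans hle
    have hx2 : 5 * r * (4 * |(x : ℝ)|) ≤ p * r + 12 * p * v := by
      have := mul_le_mul_of_nonneg_left hx (by positivity : (0 : ℝ) ≤ 5 * r)
      refine this.trans (le_of_eq ?_)
      field_simp
    refine ⟨by positivity, by exact_mod_cast h1, ?_, ?_⟩
    · exact_mod_cast hx1
    · exact_mod_cast hx2
  · exact_mod_cast hle
  · positivity

theorem row2 {p r g v : ℕ} (hp : 0 < p) (hr : 0 < r) (h1 : 2 * v + g ≤ r) (h2 : r ≤ 3 * v) :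
    (p : ℝ) / 2 - 1 ≤ (X p r g v).card := by
  have hpR : (0 : ℝ) < p := by exact_mod_cast hp
  have hrR : (0 : ℝ) < r := by exact_mod_cast hr
  have h2R : (r : ℝ) ≤ 3 * v := by exact_mod_cast h2
  apply card_body
  · intro x hx
    have hx2 : 5 * r * (4 * |(x : ℝ)|) ≤ p * r + 12 * p * v := by
      have h3 := mul_le_mul_of_nonneg_left hx (by positivity : (0 : ℝ) ≤ 5 * r)
      have h4 := mul_le_mul_of_nonneg_left h2R (by positivity : (0 : ℝ) ≤ 4 * p)
      push_cast at h3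
      linarith
    refine ⟨by positivity, by exact_mod_cast h1, ?_, ?_⟩
    · exact_mod_cast hx
    · exact_mod_cast hx2
  · simp
  · push_cast
    positivity

theorem row3 {p r g v : ℕ} (hp : 0 < p) (hr : 0 < r) (h1 : r + g ≤ 2 * v) (h2 : 24 * v ≤ 13 * r) :
    (-(4 * (p : ℝ) / 5) - 2) + (12 * p / (5 * r)) * v ≤ (X p r g v).card := by
  have hpR : (0 : ℝ) < p := by exact_mod_cast hp
  have hrR : (0 : ℝ) < r := by exact_mod_cast hr
  have h1R : (r : ℝ) ≤ 2 * v := by exact_mod_cast (by omega : r ≤ 2 * v)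
  have h2R : 24 * (v : ℝ) ≤ 13 * r := by exact_mod_cast h2
  have e1 : (-(4 * (p : ℝ) / 5) + (12 * p / (5 * r)) * v) - 2 =
      (-(4 * (p : ℝ) / 5) - 2) + (12 * p / (5 * r)) * v := by ring
  rw [← e1]
  have hle : (-(4 * (p : ℝ) / 5) + (12 * p / (5 * r)) * v) ≤ p / 2 := by
    have : (12 * p / (5 * r)) * (v : ℝ) ≤ (12 * p / (5 * r)) * (13 * r / 24) := by
      apply mul_le_mul_of_nonneg_left _ (by positivity)
      linarith
    have e2 : (12 * (p : ℝ) / (5 * r)) * (13 * r / 24) = 13 * p / 10 := by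
      field_simp
      ring
    linarith
  have hge : 0 ≤ (-(4 * (p : ℝ) / 5) + (12 * p / (5 * r)) * v) := by
    have : (12 * p / (5 * r)) * ((r : ℝ) / 2) ≤ (12 * p / (5 * r)) * (v : ℝ) := by
      apply mul_le_mul_of_nonneg_left _ (by positivity)
      linarith
    have e2 : (12 * (p : ℝ) / (5 * r)) * ((r : ℝ) / 2) = 6 * p / 5 := by
      field_simp
      ring
    linarith
  apply card_horn
  · intro x hx
    push_cast at hx
    have hx1 : 2 * |4 * |(x : ℝ)| - p| ≤ p := by linarith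
    have e3 : 5 * r * (-(4 * (p : ℝ) / 5) + (12 * p / (5 * r)) * v) =
        12 * p * v - 4 * (p * r) := by
      field_simp
      ring
    have hx2 : 5 * r * |4 * |(x : ℝ)| - p| ≤ 12 * p * v - 4 * (p * r) := by
      have := mul_le_mul_of_nonneg_left hx (by positivity : (0 : ℝ) ≤ 5 * r)
      linarith
    have hx3 : 5 * r * |4 * |(x : ℝ)| - p| < 10 * (p * r) - 12 * p * v := by
      have h3 := mul_le_mul_of_nonneg_left h2R hpR.le
      have h4 : 0 < (p : ℝ) * r := by positivity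
      linarith
    refine ⟨by exact_mod_cast h1, ?_, ?_, ?_⟩
    · exact_mod_cast hx1
    · exact_mod_cast hx2
    · exact_mod_cast hx3
  · push_cast
    linarith
  · exact hge

theorem row4 {p r g v : ℕ} (hp : 0 < p) (hr : 0 < r) (h1 : r + g ≤ 2 * v) (h2 : 13 * r ≤ 24 * v)
    (h3 : 8 * v < 5 * r) :
    (p : ℝ) / 2 - 2 ≤ (X p r g v).card := by
  have hpR : (0 : ℝ) < p := by exact_mod_cast hp
  have hrR : (0 : ℝ) < r := by exact_mod_cast hr
  have h2R : 13 * (r : ℝ) ≤ 24 * v := by exact_mod_cast h2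
  have h3R : 8 * (v : ℝ) < 5 * r := by exact_mod_cast h3
  apply card_horn
  · intro x hx
    push_cast at hx
    have hx1 : 2 * |4 * |(x : ℝ)| - p| ≤ p := by linarith
    have h4 := mul_le_mul_of_nonneg_left hx (by positivity : (0 : ℝ) ≤ 5 * r)
    have hx2 : 5 * r * |4 * |(x : ℝ)| - p| ≤ 12 * p * v - 4 * (p * r) := by
      have h5 := mul_le_mul_of_nonneg_left h2R hpR.le
      linarith
    have hx3 : 5 * r * |4 * |(x : ℝ)| - p| < 10 * (p * r) - 12 * p * v := by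
      have h5 := mul_lt_mul_of_pos_left h3R hpR
      linarith
    refine ⟨by exact_mod_cast h1, ?_, ?_, ?_⟩
    · exact_mod_cast hx1
    · exact_mod_cast hx2
    · exact_mod_cast hx3
  · push_cast
    linarith
  · positivity

theorem row5 {p r g v : ℕ} (hp : 0 < p) (hr : 0 < r) (h1 : r + g ≤ 2 * v) (h2 : 5 * r ≤ 8 * v) :
    (2 * (p : ℝ) - 3) + (-(12 * p / (5 * r))) * v ≤ (X p r g v).card := by
  have hpR : (0 : ℝ) < p := by exact_mod_cast hp
  have hrR : (0 : ℝ) < r := by exact_mod_cast hr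
  have h2R : 5 * (r : ℝ) ≤ 8 * v := by exact_mod_cast h2
  have e1 : (2 * (p : ℝ) - 1 - (12 * p / (5 * r)) * v) - 2 =
      (2 * (p : ℝ) - 3) + (-(12 * p / (5 * r))) * v := by ring
  rw [← e1]
  have hle : (2 * (p : ℝ) - 1 - (12 * p / (5 * r)) * v) ≤ p / 2 - 1 := by
    have : (12 * p / (5 * r)) * (5 * (r : ℝ) / 8) ≤ (12 * p / (5 * r)) * (v : ℝ) := by
      apply mul_le_mul_of_nonneg_left _ (by positivity)
      linarith
    have e2 : (12 * (p : ℝ) / (5 * r)) * (5 * (r : ℝ) / 8) = 3 * p / 2 := by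
      field_simp
      ring
    linarith
  rcases lt_or_ge (2 * (p : ℝ) - 1 - (12 * p / (5 * r)) * v) 0 with hneg | hge
  · have : (0 : ℝ) ≤ (X p r g v).card := by positivity
    linarith
  apply card_horn
  · intro x hx
    push_cast at hx
    have hx1 : 2 * |4 * |(x : ℝ)| - p| ≤ p := by linarith
    have e3 : 5 * r * (2 * (p : ℝ) - 1 - (12 * p / (5 * r)) * v) =
        10 * (p * r) - 5 * r - 12 * p * v := by
      field_simp
      ring
    have h4 := mul_le_mul_of_nonneg_left hx (by positivity : (0 : ℝ) ≤ 5 * r)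
    have hx2 : 5 * r * |4 * |(x : ℝ)| - p| ≤ 12 * p * v - 4 * (p * r) := by
      have h5 := mul_le_mul_of_nonneg_left h2R hpR.le
      have h6 : 0 ≤ (p : ℝ) * r := by positivity
      linarith
    have hx3 : 5 * r * |4 * |(x : ℝ)| - p| < 10 * (p * r) - 12 * p * v := by
      linarith
    refine ⟨by exact_mod_cast h1, ?_, ?_, ?_⟩
    · exact_mod_cast hx1
    · exact_mod_cast hx2
    · exact_mod_cast hx3
  · push_cast
    linarith
  · exact hge


theorem calc1 {p r n1 : ℝ} (hp : 100 ≤ p) (hr : 1000 ≤ r) (a1 : r / 3 - 1 ≤ n1) :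
    p * r / 10 - p - r ≤ n1 * (p / 10 - 1 + (6 * p / (5 * r)) * (n1 - 1) / 2) := by
  have hr0 : r ≠ 0 := by positivity
  have e : n1 * (p / 10 - 1 + (6 * p / (5 * r)) * (n1 - 1) / 2) =
      n1 * (p / 10 - 1) + (3 * p / (5 * r)) * (n1 * (n1 - 1)) := by
    field_simp
    ring
  rw [e]
  have h2 : r ^ 2 / 9 - r ≤ n1 * (n1 - 1) := by nlinarith
  have h3 : (3 * p / (5 * r)) * (r ^ 2 / 9 - r) ≤
      (3 * p / (5 * r)) * (n1 * (n1 - 1)) := mul_le_mul_of_nonneg_left h2 (by positivity)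
  have h4 : (3 * p / (5 * r)) * (r ^ 2 / 9 - r) = p * r / 15 - 3 * p / 5 := by
    field_simp
    ring
  have h5 : (r / 3 - 1) * (p / 10 - 1) ≤ n1 * (p / 10 - 1) :=
    mul_le_mul_of_nonneg_right a1 (by linarith)
  linarith

theorem calc3 {p r g n3 n4 : ℝ} (hp : 100 ≤ p) (hr : 1000 ≤ r) (hg0 : 0 ≤ g)
    (hg : 24 * g + 100 ≤ r) (a3 : n3 ≤ (r + g) / 2 + 1) (a3' : r / 2 + 1 / 2 ≤ n3)
    (a4 : 13 * r / 24 - 1 ≤ n4) :
    3 / 160 * (p * r) - g * p / 4 - p - r ≤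
      (n4 - n3) * (-(4 * p / 5) - 2 + (12 * p / (5 * r)) * (n3 + n4 - 1) / 2) := by
  have hr0 : r ≠ 0 := by positivity
  obtain ⟨q, hq⟩ : ∃ q : ℝ, q = p / r := ⟨_, rfl⟩
  have hqr : q * r = p := by rw [hq]; field_simp
  have hq0 : 0 ≤ q := by rw [hq]; positivity
  have h2 : (6 * p / (5 * r)) * (25 * r / 24 - 3 / 2) ≤
      (6 * p / (5 * r)) * (n3 + n4 - 1) :=
    mul_le_mul_of_nonneg_left (by linarith) (by positivity)
  have h3 : (6 * p / (5 * r)) * (25 * r / 24 - 3 / 2) = 5 * p / 4 - 9 * q / 5 := by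
    rw [hq]
    field_simp
    ring
  have h6 : -(4 * p / 5) - 2 + (12 * p / (5 * r)) * (n3 + n4 - 1) / 2 =
      -(4 * p / 5) - 2 + (6 * p / (5 * r)) * (n3 + n4 - 1) := by ring
  rw [h6]
  have hb : 9 / 20 * p - 9 / 5 * q - 2 ≤
      -(4 * p / 5) - 2 + (6 * p / (5 * r)) * (n3 + n4 - 1) := by linarith
  have hpr1 : q ≤ p / 1000 := by
    rw [hq]
    apply div_le_div_of_nonneg_left <;> linarith
  have hb0 : 0 ≤ 9 / 20 * p - 9 / 5 * q - 2 := by linarith
  have ha : r / 24 - g / 2 - 2 ≤ n4 - n3 := by linarith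
  have ha0 : 0 ≤ r / 24 - g / 2 - 2 := by linarith
  have h7 := mul_le_mul ha hb hb0 (by linarith : (0 : ℝ) ≤ n4 - n3)
  refine le_trans ?_ h7
  have h8 : 0 ≤ g * q := by positivity
  have h9 : 0 ≤ g * p := by positivity
  have e : (r / 24 - g / 2 - 2) * (9 / 20 * p - 9 / 5 * q - 2) =
      3 / 160 * (p * r) - 3 / 40 * (q * r) - r / 12 - 9 / 40 * (g * p) + 9 / 10 * (g * q) + g -
        9 / 10 * p + 18 / 5 * q + 4 := by ring
  rw [e, hqr]
  linarith

theorem calc5 {p r n5 n6 : ℝ} (hp : 100 ≤ p) (hr : 1000 ≤ r)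
    (a5' : n5 ≤ 5 * r / 8) (a6 : 5 * r / 6 - 1 ≤ n6) (a6' : n6 ≤ 5 * r / 6) :
    5 / 96 * (p * r) - p - r ≤
      (n6 - (n5 + 1)) * (2 * p - 3 + (-(12 * p / (5 * r))) * (n5 + 1 + n6 - 1) / 2) := by
  have hr0 : r ≠ 0 := by positivity
  have h2 : (6 * p / (5 * r)) * (n5 + n6) ≤ (6 * p / (5 * r)) * (35 * r / 24) :=
    mul_le_mul_of_nonneg_left (by linarith) (by positivity)
  have h3 : (6 * p / (5 * r)) * (35 * r / 24) = 7 * p / 4 := by
    field_simp
    ring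
  have h6 : 2 * p - 3 + (-(12 * p / (5 * r))) * (n5 + 1 + n6 - 1) / 2 =
      2 * p - 3 - (6 * p / (5 * r)) * (n5 + n6) := by ring
  rw [h6]
  have hb : p / 4 - 3 ≤ 2 * p - 3 - (6 * p / (5 * r)) * (n5 + n6) := by linarith
  have ha : 5 * r / 24 - 2 ≤ n6 - (n5 + 1) := by linarith
  have h7 := mul_le_mul ha hb (by linarith) (by linarith : (0 : ℝ) ≤ n6 - (n5 + 1))
  refine le_trans ?_ h7
  have e : (5 * r / 24 - 2) * (p / 4 - 3) = 5 / 96 * (p * r) - 5 / 8 * r - p / 2 + 6 := by ring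
  rw [e]
  linarith

/-- the number of points of the block -/
theorem card_block {p r g : ℕ} (hp : 100 ≤ p) (hr : 1000 ≤ r) (hg : 24 * g + 100 ≤ r) :
    71 / 240 * ((p : ℝ) * r) - g * p / 2 - 5 * p - 5 * r ≤
      ∑ v ∈ Finset.range r, ((X p r g v).card : ℝ) := by
  have hpR : (100 : ℝ) ≤ p := by exact_mod_cast hp
  have hrR : (1000 : ℝ) ≤ r := by exact_mod_cast hr
  have hgR : 24 * (g : ℝ) + 100 ≤ r := by exact_mod_cast hg
  have hg0 : (0 : ℝ) ≤ g := by positivity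
  have hp0 : 0 < p := by omega
  have hr0 : 0 < r := by omega
  obtain ⟨n1, hn1⟩ : ∃ n1 : ℕ, n1 = r / 3 := ⟨_, rfl⟩
  obtain ⟨n2, hn2⟩ : ∃ n2 : ℕ, n2 = (r - g) / 2 + 1 := ⟨_, rfl⟩
  obtain ⟨n3, hn3⟩ : ∃ n3 : ℕ, n3 = (r + g) / 2 + 1 := ⟨_, rfl⟩
  obtain ⟨n4, hn4⟩ : ∃ n4 : ℕ, n4 = 13 * r / 24 := ⟨_, rfl⟩
  obtain ⟨n5, hn5⟩ : ∃ n5 : ℕ, n5 = 5 * r / 8 := ⟨_, rfl⟩
  obtain ⟨n6, hn6⟩ : ∃ n6 : ℕ, n6 = 5 * r / 6 := ⟨_, rfl⟩
  have hch := sum_chain (fun v => ((X p r g (v : ℕ)).card : ℝ)) (fun n => by positivity)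
    n1 (n1 + 1) n2 n3 n4 (n4 + 1) n5 (n5 + 1) n6 r (by omega) (by omega) (by omega) (by omega)
    (by omega) (by omega) (by omega) (by omega) (by omega)
  refine le_trans ?_ hch
  have a1 : (r : ℝ) / 3 - 1 ≤ n1 := by
    have : r ≤ 3 * (n1 + 1) := by omega
    have h : (r : ℝ) ≤ 3 * (n1 + 1) := by exact_mod_cast this
    linarith
  have a1' : (n1 : ℝ) ≤ r / 3 := by
    have : 3 * n1 ≤ r := by omega
    have h : 3 * (n1 : ℝ) ≤ r := by exact_mod_cast this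
    linarith
  have a2 : ((r : ℝ) - g) / 2 ≤ n2 := by
    have : r ≤ 2 * n2 + g := by omega
    have h : (r : ℝ) ≤ 2 * n2 + g := by exact_mod_cast this
    linarith
  have a3 : (n3 : ℝ) ≤ (r + g) / 2 + 1 := by
    have : 2 * n3 ≤ r + g + 2 := by omega
    have h : 2 * (n3 : ℝ) ≤ r + g + 2 := by exact_mod_cast this
    linarith
  have a3' : (r : ℝ) / 2 + 1 / 2 ≤ n3 := by
    have : r + 1 ≤ 2 * n3 := by omega
    have h : (r : ℝ) + 1 ≤ 2 * n3 := by exact_mod_cast this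
    linarith
  have a4 : 13 * (r : ℝ) / 24 - 1 ≤ n4 := by
    have : 13 * r ≤ 24 * (n4 + 1) := by omega
    have h : 13 * (r : ℝ) ≤ 24 * (n4 + 1) := by exact_mod_cast this
    linarith
  have a4' : (n4 : ℝ) ≤ 13 * r / 24 := by
    have : 24 * n4 ≤ 13 * r := by omega
    have h : 24 * (n4 : ℝ) ≤ 13 * r := by exact_mod_cast this
    linarith
  have a5 : 5 * (r : ℝ) / 8 - 1 ≤ n5 := by
    have : 5 * r ≤ 8 * (n5 + 1) := by omega
    have h : 5 * (r : ℝ) ≤ 8 * (n5 + 1) := by exact_mod_cast this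
    linarith
  have a5' : (n5 : ℝ) ≤ 5 * r / 8 := by
    have : 8 * n5 ≤ 5 * r := by omega
    have h : 8 * (n5 : ℝ) ≤ 5 * r := by exact_mod_cast this
    linarith
  have a6 : 5 * (r : ℝ) / 6 - 1 ≤ n6 := by
    have : 5 * r ≤ 6 * (n6 + 1) := by omega
    have h : 5 * (r : ℝ) ≤ 6 * (n6 + 1) := by exact_mod_cast this
    linarith
  have a6' : (n6 : ℝ) ≤ 5 * r / 6 := by
    have : 6 * n6 ≤ 5 * r := by omega
    have h : 6 * (n6 : ℝ) ≤ 5 * r := by exact_mod_cast this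
    linarith
  -- piece 1
  have s1 : (p : ℝ) * r / 10 - p - r ≤ ∑ v ∈ Finset.Ico 0 n1, ((X p r g (v : ℕ)).card : ℝ) := by
    have h1 : ∑ v ∈ Finset.Ico 0 n1, (((p : ℝ) / 10 - 1) + (6 * p / (5 * r)) * (v : ℝ)) ≤
        ∑ v ∈ Finset.Ico 0 n1, ((X p r g (v : ℕ)).card : ℝ) := by
      apply Finset.sum_le_sum
      intro v hv
      rw [Finset.mem_Ico] at hv
      exact row1 hp0 hr0 (by omega) (by omega)
    refine le_trans ?_ h1
    rw [sum_lin _ _ _ _ (Nat.zero_le _)]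
    have := calc1 hpR hrR a1
    push_cast
    rw [sub_zero, zero_add]
    exact this
  have s2 : (p : ℝ) * r / 12 - g * p / 4 - p - r ≤
      ∑ v ∈ Finset.Ico (n1 + 1) n2, ((X p r g (v : ℕ)).card : ℝ) := by
    have h1 : ∑ v ∈ Finset.Ico (n1 + 1) n2, ((p : ℝ) / 2 - 1) ≤
        ∑ v ∈ Finset.Ico (n1 + 1) n2, ((X p r g (v : ℕ)).card : ℝ) := by
      apply Finset.sum_le_sum
      intro v hv
      rw [Finset.mem_Ico] at hv
      exact row2 hp0 hr0 (by omega) (by omega)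
    refine le_trans ?_ h1
    rw [Finset.sum_const, Nat.card_Ico, nsmul_eq_mul, Nat.cast_sub (by omega)]
    push_cast
    have h2 : ((r : ℝ) / 6 - g / 2 - 1) * (p / 2 - 1) ≤ ((n2 : ℝ) - (n1 + 1)) * (p / 2 - 1) :=
      mul_le_mul_of_nonneg_right (by linarith) (by linarith)
    linarith
  have s3 : 3 / 160 * ((p : ℝ) * r) - g * p / 4 - p - r ≤
      ∑ v ∈ Finset.Ico n3 n4, ((X p r g (v : ℕ)).card : ℝ) := by
    have h1 : ∑ v ∈ Finset.Ico n3 n4,
          ((-(4 * (p : ℝ) / 5) - 2) + (12 * p / (5 * r)) * (v : ℝ)) ≤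
        ∑ v ∈ Finset.Ico n3 n4, ((X p r g (v : ℕ)).card : ℝ) := by
      apply Finset.sum_le_sum
      intro v hv
      rw [Finset.mem_Ico] at hv
      exact row3 hp0 hr0 (by omega) (by omega)
    refine le_trans ?_ h1
    rw [sum_lin _ _ _ _ (by omega)]
    exact calc3 hpR hrR hg0 hgR a3 a3' a4
  have s4 : (p : ℝ) * r / 24 - p - r ≤
      ∑ v ∈ Finset.Ico (n4 + 1) n5, ((X p r g (v : ℕ)).card : ℝ) := by
    have h1 : ∑ v ∈ Finset.Ico (n4 + 1) n5, ((p : ℝ) / 2 - 2) ≤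
        ∑ v ∈ Finset.Ico (n4 + 1) n5, ((X p r g (v : ℕ)).card : ℝ) := by
      apply Finset.sum_le_sum
      intro v hv
      rw [Finset.mem_Ico] at hv
      exact row4 hp0 hr0 (by omega) (by omega) (by omega)
    refine le_trans ?_ h1
    rw [Finset.sum_const, Nat.card_Ico, nsmul_eq_mul, Nat.cast_sub (by omega)]
    push_cast
    have h2 : ((r : ℝ) / 12 - 2) * (p / 2 - 2) ≤ ((n5 : ℝ) - (n4 + 1)) * (p / 2 - 2) :=
      mul_le_mul_of_nonneg_right (by linarith) (by linarith)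
    linarith
  have s5 : 5 / 96 * ((p : ℝ) * r) - p - r ≤
      ∑ v ∈ Finset.Ico (n5 + 1) n6, ((X p r g (v : ℕ)).card : ℝ) := by
    have h1 : ∑ v ∈ Finset.Ico (n5 + 1) n6,
          ((2 * (p : ℝ) - 3) + (-(12 * p / (5 * r))) * (v : ℝ)) ≤
        ∑ v ∈ Finset.Ico (n5 + 1) n6, ((X p r g (v : ℕ)).card : ℝ) := by
      apply Finset.sum_le_sum
      intro v hv
      rw [Finset.mem_Ico] at hv
      exact row5 hp0 hr0 (by omega) (by omega)
    refine le_trans ?_ h1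
    rw [sum_lin _ _ _ _ (by omega)]
    push_cast
    exact calc5 hpR hrR a5' a6 a6'
  linarith

end Vale.Agent.P057.H525
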