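import Vale.Agent.P057.H525.Asy

set_option linter.all false

open Finset Filter

namespace Vale.Agent.P057.H525

theorem log_L {K d m : ℕ} {l y : ℝ} (hd : 1 ≤ d) (hm : 1 ≤ m) (hd2 : (d : ℝ) ≤ l * y + 1) :
    Real.log (2 * ((K * d * m + 1 : ℕ) : ℝ)) ≤
      Real.log (2 * ((K : ℝ) + 1)) + Real.log (l * y + 1) + Real.log m := by
  have hdR : (1 : ℝ) ≤ d := by exact_mod_cast hd
  have hmR : (1 : ℝ) ≤ m := by exact_mod_cast hm
  have hKR : (0 : ℝ) ≤ K := by positivity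
  have h1 : 2 * ((K * d * m + 1 : ℕ) : ℝ) ≤ (2 * ((K : ℝ) + 1)) * d * m := by
    push_cast
    have : (1 : ℝ) ≤ d * m := by nlinarith only [hdR, hmR]
    nlinarith only [this]
  have h2 : 0 < 2 * ((K * d * m + 1 : ℕ) : ℝ) := by positivity
  have h3 : 0 < 2 * ((K : ℝ) + 1) := by positivity
  have h4 : 0 < (d : ℝ) := by linarith
  have h5 : 0 < (m : ℝ) := by linarith
  refine (Real.log_le_log h2 h1).trans ?_
  rw [Real.log_mul (by positivity) h5.ne', Real.log_mul h3.ne' h4.ne']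
  have h6 : Real.log d ≤ Real.log (l * y + 1) := Real.log_le_log h4 hd2
  linarith

theorem asy3 (ε : ℝ) (hε : 0 < ε) : ∃ N0 : ℕ, ∀ W : ℕ, N0 ≤ W →
    ∃ A : Finset ℤ, A ⊆ Finset.Ico 0 (W : ℤ) ∧
      (∀ a ∈ A, ∀ b ∈ A, ∀ c ∈ A, a + c = 2 * b → a = c) ∧
      (W : ℝ) * Real.exp (-((1 + ε) * 2 * Real.sqrt (Real.log (240 / 71) * Real.log W))) ≤
        A.card := by
  obtain ⟨c0, hc0⟩ : ∃ c0 : ℝ, c0 = Real.log (240 / 71) := ⟨_, rfl⟩
  have hc0p : 0 < c0 := by rw [hc0]; exact Real.log_pos (by norm_num)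
  obtain ⟨σ, hσ⟩ : ∃ σ : ℝ, σ = Real.sqrt c0 := ⟨_, rfl⟩
  have hσp : 0 < σ := by rw [hσ]; exact Real.sqrt_pos.2 hc0p
  have hσ2 : σ * σ = c0 := by rw [hσ]; exact Real.mul_self_sqrt hc0p.le
  obtain ⟨l, hl⟩ : ∃ l : ℝ, l = 1 / σ := ⟨_, rfl⟩
  have hlp : 0 < l := by rw [hl]; positivity
  have hlσ : σ * l = 1 := by rw [hl]; field_simp
  obtain ⟨K, m0, hK⟩ := one_level3 (ε * c0 / 2) (by positivity)
  have ev1 := Vale.Agent.P057.Lower.ev_exp_ge (l + 1) l (by positivity) hlp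
  have ev2 := Vale.Agent.P057.Lower.ev_exp_const (l + 1) (m0 : ℝ) (by positivity)
  have ev3 := Vale.Agent.P057.Lower.ev_exp_ge (2 * (l + 1)) (2 * l + 1) (by positivity)
    (by positivity)
  have ev4 := Vale.Agent.P057.Lower.ev_log_le
    (c0 + ε * c0 / 2 + Real.log (2 * ((K : ℝ) + 1)) + Real.log 2) l (ε * σ) hlp (by positivity)
  have hy : Tendsto (fun W : ℕ => Real.sqrt (Real.log W)) atTop atTop :=
    Real.tendsto_sqrt_atTop.comp (Real.tendsto_log_atTop.comp tendsto_natCast_atTop_atTop)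
  have evall := hy.eventually (ev1.and (ev2.and (ev3.and (ev4.and
    (eventually_ge_atTop (1 : ℝ))))))
  obtain ⟨W0, hW0⟩ := eventually_atTop.1 evall
  refine ⟨max W0 1, fun W hW => ?_⟩
  have hWW0 : W0 ≤ W := le_trans (le_max_left _ _) hW
  have hW1 : 1 ≤ W := le_trans (le_max_right _ _) hW
  have hlogW : 0 ≤ Real.log W := Real.log_natCast_nonneg W
  rw [← hc0, Real.sqrt_mul hc0p.le, ← hσ]
  obtain ⟨e1, e2, e3, e4, e6⟩ := hW0 W hWW0
  have hypow : (Real.sqrt (Real.log W)) ^ (1 + 1) = Real.log W := Real.sq_sqrt hlogW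
  generalize Real.sqrt (Real.log W) = y at e1 e2 e3 e4 e6 hypow ⊢
  obtain ⟨d, m, hd1, hd2, hdm, hm1, hWm, hem, hlogm⟩ :=
    Vale.Agent.P057.Lower.choose_dm 1 0 le_rfl l y hlp e6 W hW1 hypow e1
  have hmm0 : m0 ≤ m := by exact_mod_cast (e2.trans hem)
  have hd4 : (2 * d) ^ 2 ≤ Nat.sqrt m + 1 := by
    have h1 : (2 * (d : ℝ)) ^ 2 ≤ Real.exp (y / (2 * (l + 1))) := by
      refine le_trans ?_ e3
      apply pow_le_pow_left₀ (by positivity)
      have : 2 * (d : ℝ) ≤ 2 * (l * y + 1) := by linarith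
      linarith
    have h2 : (2 * (d : ℝ)) ^ 2 * (2 * (d : ℝ)) ^ 2 ≤ m := by
      refine (mul_le_mul h1 h1 (by positivity) (Real.exp_pos _).le).trans ?_
      rw [← Real.exp_add]
      have : y / (2 * (l + 1)) + y / (2 * (l + 1)) = y / (l + 1) := by
        field_simp
        ring
      rw [this]
      exact hem
    have h3 : (2 * d) ^ 2 * (2 * d) ^ 2 ≤ m := by exact_mod_cast h2
    have h4 : (2 * d) ^ 2 ≤ Nat.sqrt m := Nat.le_sqrt.2 h3
    omega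
  have hWm' : W ≤ m ^ d := by simpa using hWm
  obtain ⟨A, hA, hAf, hAc⟩ := hK m hmm0 d hd1 hd4 W hWm'
  refine ⟨A, hA, hAf, le_trans ?_ hAc⟩
  rw [← hc0]
  have hL := log_L (K := K) hd1 hm1 hd2
  have hLpos : 0 < 2 * ((K * d * m + 1 : ℕ) : ℝ) := by positivity
  refine le_trans ?_ (le_of_eq (mul_assoc _ _ _).symm)
  apply mul_le_mul_of_nonneg_left _ (by positivity)
  have h7 : (1 / (2 * ((K * d * m + 1 : ℕ) : ℝ))) =
      Real.exp (-Real.log (2 * ((K * d * m + 1 : ℕ) : ℝ))) := by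
    rw [Real.exp_neg, Real.exp_log hLpos, one_div]
  rw [h7, ← Real.exp_add]
  apply Real.exp_le_exp.2
  have hlogm' : Real.log m ≤ Real.log 2 + σ * y := by
    have h8 : y ^ 1 / l = σ * y := by
      rw [pow_one, hl]
      field_simp
    rw [h8] at hlogm
    simpa using hlogm
  have h9 : (c0 + ε * c0 / 2) * d ≤ (c0 + ε * c0 / 2) * (l * y + 1) :=
    mul_le_mul_of_nonneg_left hd2 (by positivity)
  have h10 : (c0 + ε * c0 / 2) * (l * y + 1) = σ * y + ε * σ / 2 * y + (c0 + ε * c0 / 2) := by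
    have h11 : c0 * l = σ := by rw [← hσ2, mul_assoc, hlσ, mul_one]
    have h12 : (c0 + ε * c0 / 2) * (l * y + 1) =
        (c0 * l) * y + ε * (c0 * l) / 2 * y + (c0 + ε * c0 / 2) := by ring
    rw [h12, h11]
  have h13 : 0 ≤ ε * σ * y := by positivity
  linarith

/-- a larger lower bound for sets without three term progressions -/
theorem lower3 (ε : ℝ) (hε : 0 < ε) : ∃ N₀ : ℕ, ∀ N : ℕ, N₀ ≤ N →
    ∃ A : Finset ℕ, A ⊆ Finset.Icc 1 N ∧
      (∀ a d : ℕ, 0 < d → ¬ (a ∈ A ∧ a + d ∈ A ∧ a + 2 * d ∈ A)) ∧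
      (N : ℝ) * Real.exp (-((1 + ε) * 2 * Real.sqrt (Real.log (240 / 71) * Real.log N))) ≤
        A.card := by
  obtain ⟨N0, hN0⟩ := asy3 ε hε
  refine ⟨N0, fun N hN => ?_⟩
  obtain ⟨A, hA, hAf, hAc⟩ := hN0 N hN
  refine ⟨A.image (fun a => a.toNat + 1), ?_, ?_, ?_⟩
  · intro x hx
    obtain ⟨a, ha, rfl⟩ := Finset.mem_image.1 hx
    have := Finset.mem_Ico.1 (hA ha)
    rw [Finset.mem_Icc]
    omega
  · rintro a d hd ⟨h1, h2, h3⟩
    obtain ⟨x, hx, hx'⟩ := Finset.mem_image.1 h1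
    obtain ⟨z, hz, hz'⟩ := Finset.mem_image.1 h2
    obtain ⟨w, hw, hw'⟩ := Finset.mem_image.1 h3
    have g1 := Finset.mem_Ico.1 (hA hx)
    have g2 := Finset.mem_Ico.1 (hA hz)
    have g3 := Finset.mem_Ico.1 (hA hw)
    have := hAf x hx z hz w hw (by omega)
    omega
  · rw [Finset.card_image_of_injOn]
    · exact hAc
    · intro x hx y hy hxy
      have h1 := Finset.mem_Ico.1 (hA (Finset.mem_coe.1 hx))
      have h2 := Finset.mem_Ico.1 (hA (Finset.mem_coe.1 hy))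
      have h3 : x.toNat + 1 = y.toNat + 1 := hxy
      omega

end Vale.Agent.P057.H525
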