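import Vale.Agent.P057.H525.Card2
import Vale.Agent.P057.Bdl.B1

set_option linter.all false

open Finset

namespace Vale.Agent.P057.H525

/-- a simultaneous residue -/
theorem crt2 (p r : ℕ) (hp : 0 < p) (hr : 0 < r) (hcop : Nat.Coprime p r) :
    ∃ c : ℤ → ℤ → ℤ, ∀ x v : ℤ, (p : ℤ) ∣ c x v - x ∧ (r : ℤ) ∣ c x v - v ∧
      0 ≤ c x v ∧ c x v < (p * r : ℕ) := by
  have h : IsCoprime (p : ℤ) (r : ℤ) := Nat.isCoprime_iff_coprime.2 hcop
  obtain ⟨a, b, hab⟩ := h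
  have hq : (0 : ℤ) < ((p * r : ℕ) : ℤ) := by positivity
  refine ⟨fun x v => (x * (b * r) + v * (a * p)) % ((p * r : ℕ) : ℤ), fun x v => ?_⟩
  have h1 : ((p * r : ℕ) : ℤ) ∣ (x * (b * r) + v * (a * p)) % ((p * r : ℕ) : ℤ) -
      (x * (b * r) + v * (a * p)) := by
    refine ⟨-((x * (b * r) + v * (a * p)) / ((p * r : ℕ) : ℤ)), ?_⟩
    have := Int.emod_add_mul_ediv (x * (b * r) + v * (a * p)) ((p * r : ℕ) : ℤ)
    linarith
  have h2 : (p : ℤ) ∣ ((p * r : ℕ) : ℤ) := ⟨r, by push_cast; ring⟩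
  have h3 : (r : ℤ) ∣ ((p * r : ℕ) : ℤ) := ⟨p, by push_cast; ring⟩
  refine ⟨?_, ?_, Int.emod_nonneg _ hq.ne', Int.emod_lt_of_pos _ hq⟩
  · have h4 := h2.trans h1
    have h5 : (p : ℤ) ∣ (x * (b * r) + v * (a * p)) - x := by
      refine ⟨v * a - x * a, ?_⟩
      have : x = x * (a * p + b * r) := by rw [hab, mul_one]
      linear_combination (-1 : ℤ) * this
    have := dvd_add h4 h5
    rwa [sub_add_sub_cancel] at this
  · have h4 := h3.trans h1
    have h5 : (r : ℤ) ∣ (x * (b * r) + v * (a * p)) - v := by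
      refine ⟨x * b - v * b, ?_⟩
      have : v = v * (a * p + b * r) := by rw [hab, mul_one]
      linear_combination (-1 : ℤ) * this
    have := dvd_add h4 h5
    rwa [sub_add_sub_cancel] at this

/-- the block modulo `p r` -/
theorem block3 {p r g J : ℕ} (hcop : Nat.Coprime p r) (hp2 : p % 2 = 1)
    (hp : 100 ≤ p) (hr : 1000 ≤ r) (hg0 : 0 < g) (hg : 24 * g + 100 ≤ r)
    (hJ : 2 * p ^ 2 < J * g) (hpr : 2 * p ^ 2 < 150 * r ^ 2) :
    ∃ (U : Finset ℤ) (f : ℤ → ℤ),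
      (∀ u ∈ U, ∀ v ∈ U, ((p * r : ℕ) : ℤ) ∣ u - v → u = v) ∧
      (∀ u ∈ U, 0 ≤ f u ∧ f u ≤ 300 * r ^ 2 + J * r + p ^ 2) ∧
      (∀ a ∈ U, ∀ b ∈ U, ∀ c ∈ U, ((p * r : ℕ) : ℤ) ∣ a + c - 2 * b →
        0 ≤ f a + f c - 2 * f b ∧ (f a + f c - 2 * f b = 0 → a = c)) ∧
      71 / 240 * ((p : ℝ) * r) - g * p / 2 - 5 * p - 5 * r ≤ U.card := by
  classical
  have hp0 : 0 < p := by omega
  have hr0 : 0 < r := by omega
  have hpZ : (0 : ℤ) < p := by exact_mod_cast hp0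
  have hrZ : (0 : ℤ) < r := by exact_mod_cast hr0
  have hgZ : (0 : ℤ) < g := by exact_mod_cast hg0
  have hp2Z : (p : ℤ) % 2 = 1 := by omega
  have hJ0 : (0 : ℤ) ≤ J := by positivity
  have hJZ : 2 * (p : ℤ) ^ 2 < J * g := by exact_mod_cast hJ
  have hprZ : 2 * (p : ℤ) ^ 2 < 150 * (r : ℤ) ^ 2 := by exact_mod_cast hpr
  obtain ⟨c, hc⟩ := crt2 p r hp0 hr0 hcop
  let T : Finset (Σ _ : ℕ, ℤ) := (Finset.range r).sigma (fun v => X p r g v)
  let φ : (Σ _ : ℕ, ℤ) → ℤ := fun z => c z.2 z.1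
  have hT : ∀ z ∈ T, Pt p r g z.2 z.1 := by
    intro z hz
    have := (Finset.mem_sigma.1 hz).2
    exact (mem_X.1 this).2
  have hφ : ∀ z ∈ T, ∀ z' ∈ T, φ z = φ z' → z = z' := by
    rintro ⟨v, x⟩ hz ⟨v', x'⟩ hz' h
    have h1 := hc x v
    have h2 := hc x' v'
    have h3 : c x v = c x' v' := h
    have h4 : (p : ℤ) ∣ x - x' := by
      have := dvd_sub h2.1 h1.1
      rw [h3] at this
      have e : c x' v' - x' - (c x' v' - x) = x - x' := by ring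
      rwa [e] at this
    have h5 : (r : ℤ) ∣ (v : ℤ) - v' := by
      have := dvd_sub h2.2.1 h1.2.1
      rw [h3] at this
      have e : c x' v' - (v' : ℤ) - (c x' v' - (v : ℤ)) = v - v' := by ring
      rwa [e] at this
    obtain ⟨h6, h7⟩ := pt_inj hrZ hpZ hgZ hp2Z (hT _ hz) (hT _ hz') h4 h5
    have h8 : v = v' := by exact_mod_cast h7
    subst h8
    have h9 : x = x' := h6
    subst h9
    rfl
  have hex : ∀ u : ℤ, ∃ z : (Σ _ : ℕ, ℤ), u ∈ T.image φ → z ∈ T ∧ φ z = u := by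
    intro u
    by_cases hu : u ∈ T.image φ
    · obtain ⟨z, hz, hz'⟩ := Finset.mem_image.1 hu
      exact ⟨z, fun _ => ⟨hz, hz'⟩⟩
    · exact ⟨⟨0, 0⟩, fun h => absurd h hu⟩
  choose z hz using hex
  have hrange : ∀ u ∈ T.image φ, 0 ≤ u ∧ u < ((p * r : ℕ) : ℤ) := by
    intro u hu
    rw [← (hz u hu).2]
    exact (hc _ _).2.2
  have hpdvd : ∀ u ∈ T.image φ, (p : ℤ) ∣ u - (z u).2 := by
    intro u hu
    have := (hc (z u).2 (z u).1).1
    have e : c (z u).2 (z u).1 = u := (hz u hu).2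
    rwa [e] at this
  have hrdvd : ∀ u ∈ T.image φ, (r : ℤ) ∣ u - ((z u).1 : ℤ) := by
    intro u hu
    have := (hc (z u).2 (z u).1).2.1
    have e : c (z u).2 (z u).1 = u := (hz u hu).2
    rwa [e] at this
  refine ⟨T.image φ, fun u => wt p r J (z u).2 (z u).1, ?_, ?_, ?_, ?_⟩
  · intro u hu v hv h
    have h1 := hrange u hu
    have h2 := hrange v hv
    have := Int.eq_zero_of_abs_lt_dvd h (by rw [abs_lt]; constructor <;> omega)
    omega
  · intro u hu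
    have h1 := hT _ (hz u hu).1
    exact ⟨wt_nonneg hgZ hJ0 h1, wt_ub hrZ hpZ hgZ hp2Z hJ0 h1⟩
  · intro a ha b hb d hd h
    have h2 : (p : ℤ) ∣ ((p * r : ℕ) : ℤ) := ⟨r, by push_cast; ring⟩
    have h3 : (r : ℤ) ∣ ((p * r : ℕ) : ℤ) := ⟨p, by push_cast; ring⟩
    have hx : (p : ℤ) ∣ (z a).2 + (z d).2 - 2 * (z b).2 := by
      have := dvd_sub (dvd_sub (h2.trans h) (dvd_add (hpdvd a ha) (hpdvd d hd)))
        (dvd_neg.2 (dvd_mul_of_dvd_right (hpdvd b hb) 2))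
      have e : a + d - 2 * b - (a - (z a).2 + (d - (z d).2)) - -(2 * (b - (z b).2)) =
        (z a).2 + (z d).2 - 2 * (z b).2 := by ring
      rwa [e] at this
    have hv : (r : ℤ) ∣ ((z a).1 : ℤ) + ((z d).1 : ℤ) - 2 * ((z b).1 : ℤ) := by
      have := dvd_sub (dvd_sub (h3.trans h) (dvd_add (hrdvd a ha) (hrdvd d hd)))
        (dvd_neg.2 (dvd_mul_of_dvd_right (hrdvd b hb) 2))
      have e : a + d - 2 * b - (a - ((z a).1 : ℤ) + (d - ((z d).1 : ℤ))) -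
          -(2 * (b - ((z b).1 : ℤ))) =
        ((z a).1 : ℤ) + ((z d).1 : ℤ) - 2 * ((z b).1 : ℤ) := by ring
      rwa [e] at this
    obtain ⟨h4, h5⟩ := wt_main hpZ hrZ hp2Z hgZ hJ0 hJZ hprZ (hT _ (hz a ha).1)
      (hT _ (hz d hd).1) (hT _ (hz b hb).1) hx hv
    refine ⟨h4, fun h0 => ?_⟩
    obtain ⟨h6, h7⟩ := h5 h0
    have e1 : c (z a).2 (z a).1 = a := (hz a ha).2
    have e2 : c (z d).2 (z d).1 = d := (hz d hd).2
    rw [← e1, ← e2, h6, h7]
  · rw [Finset.card_image_of_injOn (fun a ha b hb h => hφ a ha b hb h)]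
    have : (T.card : ℝ) = ∑ v ∈ Finset.range r, ((X p r g v).card : ℝ) := by
      show (((Finset.range r).sigma (fun v => X p r g v)).card : ℝ) = _
      rw [Finset.card_sigma]
      push_cast
      rfl
    rw [this]
    exact card_block hp hr hg

/-- sets without three term progressions from blocks -/
theorem level3 {ι : Type*} [Fintype ι] [DecidableEq ι] (q : ι → ℕ)
    (hq : Pairwise (Function.onFun Nat.Coprime q)) (hq0 : ∀ i, 0 < q i)
    (U : ι → Finset ℤ) (f : ι → ℤ → ℤ)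
    (hU : ∀ i, ∀ u ∈ U i, ∀ v ∈ U i, (q i : ℤ) ∣ u - v → u = v)
    (hf0 : ∀ i, ∀ u ∈ U i, 0 ≤ f i u)
    (hAP : ∀ i, ∀ a ∈ U i, ∀ b ∈ U i, ∀ c ∈ U i, (q i : ℤ) ∣ a + c - 2 * b →
      0 ≤ f i a + f i c - 2 * f i b ∧ (f i a + f i c - 2 * f i b = 0 → a = c))
    (L : ℕ) (hL : 0 < L)
    (hF : ∀ v : ι → ℤ, (∀ i, v i ∈ U i) → ∑ i, f i (v i) < (L : ℤ))
    (W : ℕ) (hW : W ≤ ∏ i, q i) :
    ∃ A : Finset ℤ, A ⊆ Finset.Ico 0 (W : ℤ) ∧
      (∀ a ∈ A, ∀ b ∈ A, ∀ c ∈ A, a + c = 2 * b → a = c) ∧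
      (W : ℝ) * (∏ i, ((U i).card : ℝ) / q i) * (1 / (2 * L)) ≤ A.card := by
  have hB : ({0} : Finset ℤ) ⊆ Finset.Ico 0 (L : ℤ) := by
    intro x hx
    rw [Finset.mem_singleton] at hx
    rw [hx, Finset.mem_Ico]
    omega
  obtain ⟨s, t, A, hA, hprop, hcard⟩ := Vale.Agent.P057.Lower.pigeon q hq hq0 U hU
    (fun v => ∑ i, f i (v i)) L hL
    (fun v hv => ⟨Finset.sum_nonneg (fun i _ => hf0 i _ (hv i)), hF v hv⟩) {0} hB W
  refine ⟨A, hA, ?_, ?_⟩
  · intro a ha b hb c hc habc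
    obtain ⟨va, hva, hsa, hta⟩ := hprop a ha
    obtain ⟨vb, hvb, hsb, htb⟩ := hprop b hb
    obtain ⟨vc, hvc, hsc, htc⟩ := hprop c hc
    rw [Finset.mem_singleton] at hta htb htc
    have hd : ∀ i, (q i : ℤ) ∣ va i + vc i - 2 * vb i := by
      intro i
      have h1 := dvd_sub (dvd_mul_of_dvd_right (hsb i) 2) (dvd_add (hsa i) (hsc i))
      have e : 2 * (s + b - vb i) - (s + a - va i + (s + c - vc i)) =
          va i + vc i - 2 * vb i := by linarith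
      rwa [e] at h1
    have hz : ∀ i, 0 ≤ f i (va i) + f i (vc i) - 2 * f i (vb i) ∧
        (f i (va i) + f i (vc i) - 2 * f i (vb i) = 0 → va i = vc i) := fun i =>
      hAP i _ (hva i) _ (hvb i) _ (hvc i) (hd i)
    have hzero : ∑ i, (f i (va i) + f i (vc i) - 2 * f i (vb i)) = 0 := by
      rw [Finset.sum_sub_distrib, Finset.sum_add_distrib, ← Finset.mul_sum]
      linarith
    have heq : ∀ i, va i = vc i := fun i =>
      (hz i).2 ((Finset.sum_eq_zero_iff_of_nonneg (fun i _ => (hz i).1)).1 hzero i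
        (Finset.mem_univ i))
    have hcop : (∏ i, (q i : ℤ)) ∣ a - c := by
      apply Fintype.prod_dvd_of_coprime (fun i j hij => Nat.isCoprime_iff_coprime.2 (hq hij))
      intro i
      have h1 := dvd_sub (hsa i) (hsc i)
      have e : s + a - va i - (s + c - vc i) = a - c := by rw [heq i]; ring
      rwa [e] at h1
    have hlt : |a - c| < ∏ i, (q i : ℤ) := by
      have h3 : ((W : ℕ) : ℤ) ≤ ((∏ i, q i : ℕ) : ℤ) := by exact_mod_cast hW
      push_cast at h3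
      have g0 := Finset.mem_Ico.1 (hA ha)
      have g1 := Finset.mem_Ico.1 (hA hc)
      rw [abs_lt]
      constructor <;> linarith only [h3, g0, g1]
    have := Int.eq_zero_of_abs_lt_dvd hcop hlt
    omega
  · refine le_trans (le_of_eq ?_) hcard
    rw [Finset.card_singleton]
    push_cast
    rfl

end Vale.Agent.P057.H525
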